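import Vale.Agent.P167.H680.Q.Wall

/-!
# P167, general `q`, block 2A: configurations of walls with arbitrary phases
-/

namespace Vale.Agent.P167.H680.Q

open Finset Filter Topology MeasureTheory
open Vale.Agent.P167.H592
open Vale.Agent.P167.H825 (Wall WC dv epos gX gY gD gA)
open Vale.Agent.P167.H199 (Fs exO phO exO_eq phO_eq phO_add phO_zero shA thP cP cP_supp cP_fc pts)
open Vale.Agent.P152 (Edge Ori vw wt)

/-- Walls and a flow. -/
structure WCQ (ι : Type) where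
  w : ι → WallQ
  c : Ed → ℝ

variable {ι : Type} [Fintype ι]

/-- Without phases. -/
noncomputable def WCQ.old {ι : Type} (W : WCQ ι) : WC ι := ⟨fun i => (W.w i).old, W.c⟩

/-- All cut edges. -/
def WCQ.S (W : WCQ ι) : Finset Ed := univ.biUnion fun i => (W.w i).S

/-- All phases. -/
noncomputable def WCQ.ph (W : WCQ ι) (e : Ed) (b : Bool) : ℝ :=
  ∑ i, (W.w i).ph e b + W.c e / 2

theorem WCQ.old_S (W : WCQ ι) : W.old.S = W.S := rfl

/-- finitely supported flow -/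
def Fc {ι : Type} (W : WCQ ι) : Prop := (Function.support W.c).Finite

theorem mem_S_iff {W : WCQ ι} {e : Ed} : e ∈ W.S ↔ ∃ i, e ∈ (W.w i).S := by
  simp [WCQ.S]

theorem fs_ph {W : WCQ ι} (hc : Fc W) : Fs W.ph := by
  classical
  refine Fs.of (E := W.S ∪ Set.Finite.toFinset hc) fun e he => ?_
  funext b
  have h1 : ∀ i, (W.w i).ph e = 0 := fun i => ph_off fun h =>
    he (mem_union_left _ (mem_S_iff.2 ⟨i, h⟩))
  have h2 : W.c e = 0 := by
    by_contra hn
    exact he (mem_union_right _ ((Set.Finite.mem_toFinset hc).2 hn))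
  show ∑ i, (W.w i).ph e b + W.c e / 2 = 0
  rw [sum_eq_zero fun i _ => by rw [h1 i]; rfl, h2]
  simp

/-- **The insertion of a configuration of walls.** -/
noncomputable def insW (W : WCQ ι) (hc : Fc W) : LIns := insP W.S W.ph (fs_ph hc)

theorem insW_S (W : WCQ ι) (hc : Fc W) : (insW W hc).1.S = W.S := rfl

theorem insW_congr {W W' : WCQ ι} (h : W = W') (hc : Fc W) (hc' : Fc W') :
    insW W hc = insW W' hc' := by
  subst h
  rfl

/-- Support of the insertion. -/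
theorem insW_LI {K : Set (ℤ × ℤ)} {W : WCQ ι} (hc : Fc W) (hS : ∀ e ∈ W.S, e ∈ EdT K)
    (hK : ∀ e, W.c e ≠ 0 → e ∈ EdT K) : LI K (insW W hc).1 := by
  classical
  refine ⟨W.S ∪ Set.Finite.toFinset hc, ?_, subset_union_left, ?_⟩
  · intro e he
    rcases mem_union.1 he with he | he
    · exact hS e he
    · exact hK e ((Set.Finite.mem_toFinset hc).1 he)
  · intro ω ω' h
    show phO W.ph ω = phO W.ph ω'
    unfold phO
    have h0 : ∀ e ∉ W.S ∪ Set.Finite.toFinset hc, W.ph e = 0 := by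
      intro e he
      funext b
      have h1 : ∀ i, (W.w i).ph e = 0 := fun i => ph_off fun h =>
        he (mem_union_left _ (mem_S_iff.2 ⟨i, h⟩))
      have h2 : W.c e = 0 := by
        by_contra hn
        exact he (mem_union_right _ ((Set.Finite.mem_toFinset hc).2 hn))
      show ∑ i, (W.w i).ph e b + W.c e / 2 = 0
      rw [sum_eq_zero fun i _ => by rw [h1 i]; rfl, h2]
      simp
    rw [exO_eq h0, exO_eq h0]
    congr 3
    refine sum_congr rfl fun e he => ?_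
    rw [h e he]

/-! ### sums -/

section sig

variable {I : Type} [Fintype I] {κ : I → Type} [∀ i, Fintype (κ i)]

/-- The union of a family of configurations. -/
noncomputable def sig {I : Type} [Fintype I] {κ : I → Type} (W : ∀ i, WCQ (κ i)) :
    WCQ (Σ i, κ i) :=
  ⟨fun x => (W x.1).w x.2, fun e => ∑ i, (W i).c e⟩

theorem sig_old {I : Type} [Fintype I] {κ : I → Type} (W : ∀ i, WCQ (κ i)) :
    (sig W).old = H199.sig fun i => (W i).old := rfl

theorem sig_S (W : ∀ i, WCQ (κ i)) : (sig W).S = univ.biUnion fun i => (W i).S := by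
  ext e
  rw [mem_S_iff, mem_biUnion]
  constructor
  · rintro ⟨⟨i, j⟩, h⟩
    exact ⟨i, mem_univ _, mem_S_iff.2 ⟨j, h⟩⟩
  · rintro ⟨i, _, h⟩
    obtain ⟨j, h⟩ := mem_S_iff.1 h
    exact ⟨⟨i, j⟩, h⟩

theorem sig_ph (W : ∀ i, WCQ (κ i)) : (sig W).ph = ∑ i, (W i).ph := by
  funext e b
  rw [Finset.sum_apply, Finset.sum_apply]
  show ∑ x : Σ i, κ i, ((W x.1).w x.2).ph e b + (∑ i, (W i).c e) / 2 =
    ∑ i, (∑ j, ((W i).w j).ph e b + (W i).c e / 2)
  rw [Fintype.sum_sigma, sum_add_distrib, sum_div]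

theorem sig_fc {I : Type} [Fintype I] {κ : I → Type} {W : ∀ i, WCQ (κ i)}
    (hc : ∀ i, Fc (W i)) : Fc (sig W) := by
  refine (Set.finite_iUnion hc).subset fun e he => ?_
  rw [Set.mem_iUnion]
  by_contra hn
  push Not at hn
  apply he
  show ∑ i, (W i).c e = 0
  exact sum_eq_zero fun i _ => by
    have := hn i
    simpa [Function.mem_support] using this

/-- **Products of insertions.** -/
theorem insW_sig [DecidableEq I] (W : ∀ i, WCQ (κ i)) (hc : ∀ i, Fc (W i)) :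
    insW (sig W) (sig_fc hc) = ∏ i, insW (W i) (hc i) := by
  unfold insW
  have h' : Fs (∑ i, (W i).ph) := by rw [← sig_ph]; exact fs_ph (sig_fc hc)
  rw [← insP_prod univ (fun i => (W i).S) (fun i => (W i).ph) (fun i => fs_ph (hc i)) h']
  exact insP_congr (sig_S W) (sig_ph W) _ _

end sig

/-- Products over a finite set of indices. -/
theorem insW_sig_coe {I : Type} [DecidableEq I] {κ : I → Type} [∀ i, Fintype (κ i)]
    (A : Finset I) (W : ∀ i, WCQ (κ i)) (hc : ∀ i, Fc (W i)) :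
    insW (sig fun i : A => W i) (sig_fc fun i : A => hc i) = ∏ i ∈ A, insW (W i) (hc i) := by
  rw [insW_sig (fun i : A => W i) (fun i => hc i)]
  exact prod_coe_sort A fun i => insW (W i) (hc i)

/-! ### binary sums -/

/-- The union of two configurations. -/
noncomputable def add2 {ι ι' : Type} (W : WCQ ι) (W' : WCQ ι') : WCQ (ι ⊕ ι') :=
  ⟨Sum.elim W.w W'.w, fun e => W.c e + W'.c e⟩

section add2

variable {ι ι' : Type} [Fintype ι] [Fintype ι']

theorem add2_old {ι ι' : Type} (W : WCQ ι) (W' : WCQ ι') :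
    (add2 W W').old = H199.add2 W.old W'.old := by
  unfold WCQ.old H199.add2 add2
  congr 1
  funext i
  rcases i with i | i <;> rfl

theorem add2_S (W : WCQ ι) (W' : WCQ ι') : (add2 W W').S = W.S ∪ W'.S := by
  ext e
  rw [mem_S_iff, mem_union, mem_S_iff, mem_S_iff]
  constructor
  · rintro ⟨i | i, h⟩
    · exact Or.inl ⟨i, h⟩
    · exact Or.inr ⟨i, h⟩
  · rintro (⟨i, h⟩ | ⟨i, h⟩)
    · exact ⟨Sum.inl i, h⟩
    · exact ⟨Sum.inr i, h⟩

theorem add2_ph (W : WCQ ι) (W' : WCQ ι') : (add2 W W').ph = W.ph + W'.ph := by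
  funext e b
  show ∑ i : ι ⊕ ι', (Sum.elim W.w W'.w i).ph e b + (W.c e + W'.c e) / 2 =
    (∑ i, (W.w i).ph e b + W.c e / 2) + (∑ i, (W'.w i).ph e b + W'.c e / 2)
  rw [Fintype.sum_sum_type]
  simp only [Sum.elim_inl, Sum.elim_inr]
  ring

theorem add2_fc {ι ι' : Type} {W : WCQ ι} {W' : WCQ ι'} (hc : Fc W) (hc' : Fc W') :
    Fc (add2 W W') := by
  refine (Set.Finite.union hc hc').subset fun e he => ?_
  by_contra hn
  rw [Set.mem_union, not_or] at hn
  apply he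
  have h1 : W.c e = 0 := by simpa [Function.mem_support] using hn.1
  have h2 : W'.c e = 0 := by simpa [Function.mem_support] using hn.2
  show W.c e + W'.c e = 0
  rw [h1, h2, add_zero]

theorem insW_add2 {W : WCQ ι} {W' : WCQ ι'} (hc : Fc W) (hc' : Fc W') :
    insW (add2 W W') (add2_fc hc hc') = insW W hc * insW W' hc' := by
  unfold insW
  rw [← insP_mul]
  exact insP_congr (add2_S W W') (add2_ph W W') _ _

end add2

/-! ### translations and reflections -/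

/-- translations -/
noncomputable def tr {ι : Type} (W : WCQ ι) (a : ℤ × ℤ) : WCQ ι :=
  ⟨fun i => wtr (W.w i) a, fun e => W.c (shE (-a) e)⟩

theorem tr_old {ι : Type} (W : WCQ ι) (a : ℤ × ℤ) : (tr W a).old = H199.tr W.old a := rfl

theorem tr_S (W : WCQ ι) (a : ℤ × ℤ) : (tr W a).S = W.S.image (shE a) := by
  unfold WCQ.S
  rw [biUnion_image]
  exact biUnion_congr rfl fun i _ => wtr_S (W.w i) a

theorem tr_ph (W : WCQ ι) (a : ℤ × ℤ) : (tr W a).ph = shA a W.ph := by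
  funext e b
  show ∑ i, (wtr (W.w i) a).ph e b + W.c (shE (-a) e) / 2 =
    ∑ i, (W.w i).ph (shE (-a) e) b + W.c (shE (-a) e) / 2
  congr 1
  refine sum_congr rfl fun i _ => ?_
  rw [wtr_ph]
  rfl

theorem tr_fc {ι : Type} {W : WCQ ι} (hc : Fc W) (a : ℤ × ℤ) : Fc (tr W a) := by
  refine (Set.Finite.image (shE a) hc).subset fun e he => ⟨shE (-a) e, he, ?_⟩
  rw [shE_shE, add_neg_cancel, shE_zero]

theorem insW_tr (W : WCQ ι) (hc : Fc W) (a : ℤ × ℤ) :
    insW (tr W a) (tr_fc hc a) = LIns.sh a (insW W hc) := by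
  unfold insW
  rw [← insP_sh]
  exact insP_congr (tr_S W a) (tr_ph W a) _ _

/-- reflection in the columns -/
noncomputable def mX {ι : Type} (W : WCQ ι) : WCQ ι := ⟨fun i => wrX (W.w i), cP (rX ℤ ℤ) W.c⟩

/-- reflection in the diagonal -/
noncomputable def mD {ι : Type} (W : WCQ ι) : WCQ ι := ⟨fun i => wrD (W.w i), cP rD W.c⟩

theorem mD_old {ι : Type} (W : WCQ ι) : (mD W).old = H199.mD W.old := rfl

theorem mX_S (W : WCQ ι) : (mX W).S = W.S.image (rX ℤ ℤ).ρ := by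
  unfold WCQ.S
  rw [biUnion_image]
  exact biUnion_congr rfl fun i _ => wrX_S (W.w i)

theorem mD_S (W : WCQ ι) : (mD W).S = W.S.image rD.ρ := by
  unfold WCQ.S
  rw [biUnion_image]
  exact biUnion_congr rfl fun i _ => wrD_S (W.w i)

theorem mX_ph (W : WCQ ι) : (mX W).ph = thP (rX ℤ ℤ) W.ph := by
  funext e b
  show ∑ i, (wrX (W.w i)).ph e b + cP (rX ℤ ℤ) W.c e / 2 =
    (if (rX ℤ ℤ).s e then 1 else -1) * (∑ i, (W.w i).ph ((rX ℤ ℤ).ρ e) (xor ((rX ℤ ℤ).t e) b) +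
      W.c ((rX ℤ ℤ).ρ e) / 2)
  rw [mul_add, mul_sum]
  congr 1
  · refine sum_congr rfl fun i _ => ?_
    rw [wrX_ph]
    rfl
  · show (if (rX ℤ ℤ).s e then 1 else -1) * W.c ((rX ℤ ℤ).ρ e) / 2 = _
    ring

theorem mD_ph (W : WCQ ι) : (mD W).ph = thP rD W.ph := by
  funext e b
  show ∑ i, (wrD (W.w i)).ph e b + cP rD W.c e / 2 =
    (if rD.s e then 1 else -1) * (∑ i, (W.w i).ph (rD.ρ e) (xor (rD.t e) b) +
      W.c (rD.ρ e) / 2)
  rw [mul_add, mul_sum]
  congr 1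
  · refine sum_congr rfl fun i _ => ?_
    rw [wrD_ph]
    rfl
  · show (if rD.s e then 1 else -1) * W.c (rD.ρ e) / 2 = _
    ring

theorem mX_fc {ι : Type} {W : WCQ ι} (hc : Fc W) : Fc (mX W) := cP_fc rX_lin hc

theorem mD_fc {ι : Type} {W : WCQ ι} (hc : Fc W) : Fc (mD W) := cP_fc rD_lin hc

theorem insW_mX (W : WCQ ι) (hc : Fc W) : insW (mX W) (mX_fc hc) = LIns.th rX_lin (insW W hc) := by
  unfold insW
  rw [← insP_th rX_lin]
  exact insP_congr (mX_S W) (mX_ph W) _ _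

theorem insW_mD (W : WCQ ι) (hc : Fc W) : insW (mD W) (mD_fc hc) = LIns.th rD_lin (insW W hc) := by
  unfold insW
  rw [← insP_th rD_lin]
  exact insP_congr (mD_S W) (mD_ph W) _ _

/-- The four reflections. -/
noncomputable def rfX {ι : Type} (m : ℤ) (W : WCQ ι) : WCQ ι := tr (mX W) (m • gX.s)
/-- The four reflections. -/
noncomputable def rfD {ι : Type} (m : ℤ) (W : WCQ ι) : WCQ ι := tr (mD W) (m • gD.s)
/-- The four reflections. -/
noncomputable def rfY {ι : Type} (m : ℤ) (W : WCQ ι) : WCQ ι := tr (mD (mX (mD W))) (m • gY.s)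
/-- The four reflections. -/
noncomputable def rfA {ι : Type} (m : ℤ) (W : WCQ ι) : WCQ ι := tr (mX (mD (mX W))) (m • gA.s)

theorem rfX_fc {ι : Type} {W : WCQ ι} (hc : Fc W) (m : ℤ) : Fc (rfX m W) := tr_fc (mX_fc hc) _
theorem rfD_fc {ι : Type} {W : WCQ ι} (hc : Fc W) (m : ℤ) : Fc (rfD m W) := tr_fc (mD_fc hc) _
theorem rfY_fc {ι : Type} {W : WCQ ι} (hc : Fc W) (m : ℤ) : Fc (rfY m W) :=
  tr_fc (mD_fc (mX_fc (mD_fc hc))) _
theorem rfA_fc {ι : Type} {W : WCQ ι} (hc : Fc W) (m : ℤ) : Fc (rfA m W) :=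
  tr_fc (mX_fc (mD_fc (mX_fc hc))) _

theorem insW_rfX (W : WCQ ι) (hc : Fc W) (m : ℤ) : insW (rfX m W) (rfX_fc hc m) =
    LIns.sh (m • gX.s) (LIns.th rX_lin (insW W hc)) := by
  unfold rfX
  rw [insW_tr _ (mX_fc hc), insW_mX _ hc]

theorem insW_rfD (W : WCQ ι) (hc : Fc W) (m : ℤ) : insW (rfD m W) (rfD_fc hc m) =
    LIns.sh (m • gD.s) (LIns.th rD_lin (insW W hc)) := by
  unfold rfD
  rw [insW_tr _ (mD_fc hc), insW_mD _ hc]

theorem insW_rfY (W : WCQ ι) (hc : Fc W) (m : ℤ) : insW (rfY m W) (rfY_fc hc m) =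
    LIns.sh (m • gY.s) (thY (insW W hc)) := by
  unfold rfY thY
  rw [insW_tr _ (mD_fc (mX_fc (mD_fc hc))), insW_mD _ (mX_fc (mD_fc hc)), insW_mX _ (mD_fc hc),
    insW_mD _ hc]

theorem insW_rfA (W : WCQ ι) (hc : Fc W) (m : ℤ) : insW (rfA m W) (rfA_fc hc m) =
    LIns.sh (m • gA.s) (thA (insW W hc)) := by
  unfold rfA thA
  rw [insW_tr _ (mX_fc (mD_fc (mX_fc hc))), insW_mX _ (mD_fc (mX_fc hc)), insW_mD _ (mX_fc hc),
    insW_mX _ hc]

/-! ### geometry -/

/-- Same positions. -/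
structure Same {ι : Type} (W W' : WC ι) : Prop where
  L : ∀ i, (W.w i).L = (W'.w i).L
  pos : ∀ i k, (W.w i).pos k = (W'.w i).pos k
  c : W.c = W'.c
  j : ∀ i, (W.w i).j = 0

theorem Same.adm {ι : Type} [Fintype ι] {W W' : WC ι} (h : Same W W') {κ R B : ℝ} {n : ℕ}
    (hA : W'.Adm κ R B n) : W.Adm κ R B n where
  len i := by rw [h.L]; exact hA.len i
  box i k hk := by
    rw [h.L] at hk
    rw [h.pos]
    exact hA.box i k hk
  sep i i' hi k hk k' hk' := by
    rw [h.L] at hk hk'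
    rw [h.pos, h.pos]
    exact hA.sep i i' hi k hk k' hk'
  jump i := Or.inl (h.j i)
  csup e he := by
    rw [h.c] at he
    refine ⟨(hA.csup e he).1, fun i k hk => ?_⟩
    rw [h.L] at hk
    rw [h.pos]
    exact (hA.csup e he).2 i k hk
  cle e := by rw [h.c]; exact hA.cle e
  dle z := by rw [h.c]; exact hA.dle z

theorem Same.pts {ι : Type} {W W' : WC ι} (h : Same W W') : pts W = pts W' := by
  ext v
  unfold H199.pts
  rw [Set.mem_ofPred_eq, Set.mem_ofPred_eq, h.c]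
  refine or_congr ?_ Iff.rfl
  constructor
  · rintro ⟨i, k, hk, hv⟩
    exact ⟨i, k, by rw [← h.L]; exact hk, by rw [← h.pos]; exact hv⟩
  · rintro ⟨i, k, hk, hv⟩
    exact ⟨i, k, by rw [h.L]; exact hk, by rw [h.pos]; exact hv⟩

theorem wrX_old_L (w : WallQ) : (wrX w).old.L = (H199.wrX w.old).L := by
  rw [H199.wrX_L]
  exact wrX_L w

theorem wrX_old_pos (w : WallQ) (k : ℕ) : (wrX w).old.pos k = (H199.wrX w.old).pos k := by
  cases ho : w.o
  · rw [wrX_false ho]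
    have h1 : H199.wrX w.old = ⟨false, (-w.q.1, w.q.2), w.L, w.old.c + w.old.J, !w.old.t, w.old.j,
      w.old.k0⟩ := by
      unfold H199.wrX
      rw [if_neg (by simp [WallQ.old, ho])]
      rfl
    rw [h1]
    rfl
  · rw [wrX_true ho]
    have h1 : H199.wrX w.old = ⟨true, (2 - w.q.1 - w.L, w.q.2), w.L,
      w.old.c + w.old.j * (Real.pi / 3), w.old.t, -w.old.j, w.old.L - w.old.k0⟩ := by
      unfold H199.wrX
      rw [if_pos (by simp [WallQ.old, ho])]
      rfl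
    rw [h1]
    rfl

theorem same_mX {ι : Type} (W : WCQ ι) : Same (mX W).old (H199.mX W.old) where
  L i := wrX_old_L (W.w i)
  pos i k := wrX_old_pos (W.w i) k
  c := rfl
  j _ := rfl

/-! ### admissibility -/

/-- Admissible configurations: the positions and the flow. -/
def WCQ.Adm {ι : Type} [Fintype ι] (W : WCQ ι) (κ R B : ℝ) (n : ℕ) : Prop := W.old.Adm κ R B n

section adm

variable {ι : Type} [Fintype ι] {W : WCQ ι} {κ κ' R R' B B' : ℝ} {n : ℕ}

theorem Adm.mono (h : W.Adm κ R B n) (hκ : κ' * n ≤ κ * n) (hR : R * n ≤ R' * n) (hB : B ≤ B') :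
    W.Adm κ' R' B' n := H199.Adm.mono h hκ hR hB

theorem Adm.mX (h : W.Adm κ R B n) (hκ : κ' * n + 1 ≤ κ * n) (hR : R * n + 1 ≤ R' * n) :
    (mX W).Adm κ' R' B n := (same_mX W).adm (H199.Adm.mX h hκ hR)

theorem Adm.mD (h : W.Adm κ R B n) : (mD W).Adm κ R B n := H199.Adm.mD h

theorem Adm.tr {a : ℤ × ℤ} (h : W.Adm κ R B n) (hR : R * n + nm a ≤ R' * n) :
    (tr W a).Adm κ R' B n := H199.Adm.tr h hR

theorem Adm.sig {I : Type} [Fintype I] {κ' : I → Type} [∀ i, Fintype (κ' i)]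
    {W : ∀ i, WCQ (κ' i)} {κ R B : ℝ} {n : ℕ} (h : ∀ i, (W i).Adm κ R B n)
    (hf : ∀ i j, i ≠ j → ∀ u ∈ pts (W i).old, ∀ v ∈ pts (W j).old, κ * n ≤ (nm (u - v) : ℝ)) :
    (sig W).Adm κ R (Fintype.card I * B) n := H199.Adm.sig h hf

theorem Adm.add2 {ι ι' : Type} [Fintype ι] [Fintype ι'] {W : WCQ ι} {W' : WCQ ι'}
    (h : W.Adm κ R B n) (h' : W'.Adm κ R B n)
    (hf : ∀ u ∈ pts W.old, ∀ v ∈ pts W'.old, κ * n ≤ (nm (u - v) : ℝ)) :
    (add2 W W').Adm κ R (2 * B) n := by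
  unfold WCQ.Adm
  rw [add2_old]
  exact H199.Adm.add2 h h' hf

theorem pts_mX (W : WCQ ι) {v : ℤ × ℤ} (hv : v ∈ pts (mX W).old) :
    ∃ u ∈ pts W.old, ∃ s : ℤ, (s = 0 ∨ s = 1) ∧ v = H199.rp s u := by
  rw [(same_mX W).pts] at hv
  exact H199.pts_mX W.old hv

theorem pts_mD (W : WCQ ι) {v : ℤ × ℤ} (hv : v ∈ pts (mD W).old) : v.swap ∈ pts W.old :=
  H199.pts_mD W.old hv

theorem pts_tr (W : WCQ ι) (a : ℤ × ℤ) {v : ℤ × ℤ} : v ∈ pts (tr W a).old ↔ v - a ∈ pts W.old :=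
  H199.pts_tr W.old a

/-- Far configurations have disjoint cuts. -/
theorem disj_of_far {ι ι' : Type} [Fintype ι] [Fintype ι'] {W : WCQ ι} {W' : WCQ ι'} {r : ℝ}
    (hr : 0 < r) (hf : ∀ u ∈ pts W.old, ∀ v ∈ pts W'.old, r ≤ (nm (u - v) : ℝ)) :
    Disjoint W.S W'.S := H199.disj_of_far (W := W.old) (W' := W'.old) hr hf

theorem pts_sub {K : Set (ℤ × ℤ)} (hS : ∀ e ∈ W.S, e ∈ EdT K)
    (hK : ∀ e, W.c e ≠ 0 → e ∈ EdT K) : pts W.old ⊆ K := H199.pts_sub (W := W.old) hS hK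

end adm

end Vale.Agent.P167.H680.Q
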