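import Vale.Agent.P167.H680.Q.Os

/-!
# P167, general `q`, block 2A: the class of walls

`√q = 2 cos θ`. Phases of the faces of a wall: mean value `c` on the face `false` and `c + J`,
`J = ± θ / 2`, on the face `true`, a stagger `± χ / 2`, `χ = (3 θ - π) / 2`, of opposite signs on the
two faces, and at most one jump `j` at the step `k0` (on both faces); at the junction of a free and a
wired part the stagger changes its sign.
-/

namespace Vale.Agent.P167.H680.Q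

open Finset Filter Topology MeasureTheory
open Vale.Agent.P167.H592
open Vale.Agent.P167.H825 (gX gY gD gA)

/-- The stagger. -/
noncomputable def chiQ (θ : ℝ) : ℝ := (3 * θ - Real.pi) / 2

/-- The data of the phases of a wall. -/
structure WD where
  c : ℝ
  J : ℝ
  s : ℝ
  j : ℝ
  k0 : ℕ
  η : ℝ

/-- Sign of the stagger at the step `k`: `s` before the jump, `s η` after it, alternating. -/
noncomputable def WD.sg (d : WD) (k : ℕ) : ℝ := d.s * (-1) ^ k * if d.k0 ≤ k then d.η else 1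

/-- The jump. -/
noncomputable def WD.jp (d : WD) (k : ℕ) : ℝ := if d.k0 ≤ k then d.j else 0

/-- Admissible data: `J = ± θ / 2`, `s = ± 1`; no jump; junction (the stagger changes its sign) in
the two gauges; base point of the free or wired functional. -/
def WD.Ok (d : WD) (θ : ℝ) : Prop :=
  (d.J = θ / 2 ∨ d.J = -(θ / 2)) ∧ (d.s = 1 ∨ d.s = -1) ∧
    ((d.η = 1 ∧ d.j = 0) ∨ (d.η = -1 ∧ (|d.j| = (Real.pi - θ) / 2 ∨ |d.j| = (Real.pi - 3 * θ) / 2)) ∨
      (d.η = 1 ∧ |d.j| = θ))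

/-- The wall `w` has the phases of the data `d`. -/
def WD.Fits (d : WD) (θ : ℝ) (w : WallQ) : Prop := ∀ k < w.L,
  w.u k = d.c + d.jp k - d.sg k * (chiQ θ / 2) ∧
    w.v k = d.c + d.J + d.jp k + d.sg k * (chiQ θ / 2)

/-- A single wall, without flow. -/
def one (w : WallQ) : WCQ Unit := ⟨fun _ => w, 0⟩

theorem one_fc (w : WallQ) : Fc (one w) := by
  show (Function.support (0 : Ed → ℝ)).Finite
  simp

/-- **The class of walls**; the normalisation is the value of the single wall. -/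
noncomputable def clQ (om : Ins → ℂ) (θ : ℝ) : Cls where
  P κ n w := ∃ d : WD, d.Ok θ ∧ d.Fits θ w ∧
    ((d.j = 0 ∧ d.η = 1) ∨ (κ * n ≤ d.k0 ∧ d.k0 + κ * n ≤ w.L ∧ d.k0 ≤ w.L))
  Z _ w := ‖om (insW (one w) (one_fc w)).1‖

variable {om : Ins → ℂ} {θ : ℝ}

theorem one_wtr (w : WallQ) (a : ℤ × ℤ) : one (wtr w a) = tr (one w) a := rfl

theorem one_wrD (w : WallQ) : one (wrD w) = mD (one w) := by
  unfold one mD
  congr 1
  funext e
  show (0 : ℝ) = _ * 0
  rw [mul_zero]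

theorem one_wrX (w : WallQ) : one (wrX w) = mX (one w) := by
  unfold one mX
  congr 1
  funext e
  show (0 : ℝ) = _ * 0
  rw [mul_zero]

theorem Z_wtr (hok : (sysOm om).Ok) (n : ℕ) (w : WallQ) (a : ℤ × ℤ) :
    (clQ om θ).Z n (wtr w a) = (clQ om θ).Z n w := by
  show ‖om (insW (tr (one w) a) _).1‖ = ‖om (insW (one w) _).1‖
  rw [insW_tr (one w) (one_fc w) a]
  have := hok.w_sh a (insW (one w) (one_fc w))
  exact congrArg norm this

theorem Z_wrD {c : ℝ} (hom : IsOm c om) (hc : 0 ≤ c) (n : ℕ) (w : WallQ) :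
    (clQ om θ).Z n (wrD w) = (clQ om θ).Z n w := by
  show ‖om (insW (one (wrD w)) _).1‖ = ‖om (insW (one w) _).1‖
  rw [insW_congr (one_wrD w) _ (mD_fc (one_fc w)), insW_mD (one w) (one_fc w)]
  have := (hom.rfl_D hc).conj (insW (one w) (one_fc w))
  rw [this, RCLike.norm_conj]

theorem Z_wrX {c : ℝ} (hom : IsOm c om) (hc : 0 ≤ c) (n : ℕ) (w : WallQ) :
    (clQ om θ).Z n (wrX w) = (clQ om θ).Z n w := by
  show ‖om (insW (one (wrX w)) _).1‖ = ‖om (insW (one w) _).1‖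
  rw [insW_congr (one_wrX w) _ (mX_fc (one_fc w)), insW_mX (one w) (one_fc w)]
  have := (hom.rfl_X hc).conj (insW (one w) (one_fc w))
  rw [this, RCLike.norm_conj]

/-- Data of the reversed wall. -/
noncomputable def WD.rev (d : WD) (L : ℕ) : WD :=
  ⟨d.c + d.j, d.J, d.s * (-1) ^ (L - 1) * d.η, -d.j, L - d.k0, d.η⟩

/-- Data of the wall with exchanged faces. -/
noncomputable def WD.ex (d : WD) : WD := ⟨d.c + d.J, -d.J, -d.s, d.j, d.k0, d.η⟩

theorem WD.Ok.eta {d : WD} (h : d.Ok θ) : d.η = 1 ∨ d.η = -1 := by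
  rcases h.2.2 with h | h | h
  · exact Or.inl h.1
  · exact Or.inr h.1
  · exact Or.inl h.1

theorem WD.Ok.ex {d : WD} (h : d.Ok θ) : d.ex.Ok θ := by
  obtain ⟨h1, h2, h3⟩ := h
  refine ⟨?_, ?_, h3⟩
  · show -d.J = θ / 2 ∨ -d.J = -(θ / 2)
    rcases h1 with h1 | h1
    · exact Or.inr (by rw [h1])
    · exact Or.inl (by rw [h1, neg_neg])
  · show -d.s = 1 ∨ -d.s = -1
    rcases h2 with h2 | h2
    · exact Or.inr (by rw [h2])
    · exact Or.inl (by rw [h2, neg_neg])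

theorem WD.Ok.rev {d : WD} (h : d.Ok θ) (L : ℕ) : (d.rev L).Ok θ := by
  have he := h.eta
  obtain ⟨h1, h2, h3⟩ := h
  refine ⟨h1, ?_, ?_⟩
  · show d.s * (-1) ^ (L - 1) * d.η = 1 ∨ d.s * (-1) ^ (L - 1) * d.η = -1
    rcases neg_one_pow_eq_or ℝ (L - 1) with h4 | h4 <;> rcases h2 with h2 | h2 <;>
      rcases he with he | he <;> rw [h4, h2, he] <;> norm_num
  · show (d.η = 1 ∧ -d.j = 0) ∨ (d.η = -1 ∧ (|-d.j| = (Real.pi - θ) / 2 ∨
      |-d.j| = (Real.pi - 3 * θ) / 2)) ∨ (d.η = 1 ∧ |-d.j| = θ)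
    rw [abs_neg, neg_eq_zero]
    exact h3

theorem pow_rev {L k : ℕ} (hk : k < L) : (-1 : ℝ) ^ (L - 1 - k) = (-1) ^ (L - 1) * (-1) ^ k := by
  have h1 : L - 1 = (L - 1 - k) + k := by omega
  conv_rhs => rw [h1, pow_add, mul_assoc, ← mul_pow]
  norm_num

theorem WD.rev_jp (d : WD) {L k : ℕ} (hk : k < L) :
    d.c + d.jp (L - 1 - k) = (d.rev L).c + (d.rev L).jp k := by
  unfold WD.jp WD.rev
  simp only
  by_cases h : d.k0 ≤ L - 1 - k
  · rw [if_pos h, if_neg (by omega)]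
    ring
  · rw [if_neg h, if_pos (by omega)]
    ring

theorem WD.rev_sg (d : WD) (hη : d.η = 1 ∨ d.η = -1) {L k : ℕ} (hk : k < L) :
    d.sg (L - 1 - k) = (d.rev L).sg k := by
  have hη2 : d.η * d.η = 1 := by rcases hη with h | h <;> rw [h] <;> norm_num
  unfold WD.sg WD.rev
  simp only
  rw [pow_rev hk]
  by_cases h : d.k0 ≤ L - 1 - k
  · rw [if_pos h, if_neg (by omega)]
    ring
  · rw [if_neg h, if_pos (by omega)]
    linear_combination (-(d.s * (-1) ^ (L - 1) * (-1) ^ k)) * hη2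

theorem WD.Fits.wtr {d : WD} {w : WallQ} (h : d.Fits θ w) (a : ℤ × ℤ) : d.Fits θ (wtr w a) := h

theorem WD.Fits.wrD {d : WD} {w : WallQ} (h : d.Fits θ w) : d.Fits θ (wrD w) := h

theorem WD.Fits.wrX_false {d : WD} {w : WallQ} (h : d.Fits θ w) (ho : w.o = false) :
    d.ex.Fits θ (wrX w) := by
  intro k hk
  rw [wrX_L] at hk
  obtain ⟨h1, h2⟩ := h k hk
  rw [Q.wrX_false ho]
  have e1 : d.ex.sg k = - d.sg k := by
    unfold WD.sg WD.ex
    simp only
    ring
  refine ⟨?_, ?_⟩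
  · show w.v k = d.c + d.J + d.jp k - d.ex.sg k * (chiQ θ / 2)
    rw [h2, e1]
    ring
  · show w.u k = d.c + d.J + -d.J + d.jp k + d.ex.sg k * (chiQ θ / 2)
    rw [h1, e1]
    ring

theorem WD.Fits.wrX_true {d : WD} {w : WallQ} (h : d.Fits θ w) (hη : d.η = 1 ∨ d.η = -1)
    (ho : w.o = true) : (d.rev w.L).Fits θ (wrX w) := by
  intro k hk
  rw [wrX_L] at hk
  have hk' : w.L - 1 - k < w.L := by omega
  obtain ⟨h1, h2⟩ := h (w.L - 1 - k) hk'
  have e1 := d.rev_jp hk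
  have e2 := d.rev_sg hη hk
  rw [Q.wrX_true ho]
  refine ⟨?_, ?_⟩
  · show w.u (w.L - 1 - k) = _
    rw [h1, e2]
    linarith
  · show w.v (w.L - 1 - k) = _
    rw [h2, e2]
    have e3 : (d.rev w.L).J = d.J := rfl
    rw [e3]
    linarith

/-- **The class is invariant**; positivity of the normalisations is the only hypothesis. -/
theorem clQ_ok {c : ℝ} (hom : IsOm c om) (hc : 0 ≤ c) (hok : (sysOm om).Ok)
    (hpos : ∀ {κ : ℝ}, 0 < κ → ∀ᶠ n : ℕ in atTop, ∀ w, (clQ om θ).P κ n w →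
      0 < (clQ om θ).Z n w) : (clQ om θ).Ok where
  mono := by
    rintro κ κ' n w h ⟨d, h1, h2, h3⟩
    refine ⟨d, h1, h2, h3.imp_right fun h4 => ⟨by linarith, by linarith, h4.2.2⟩⟩
  pos := hpos
  tr := fun _ h => h
  rD := fun h => h
  rX := by
    rintro κ κ' n w h ⟨d, h1, h2, h3⟩
    cases ho : w.o
    · refine ⟨d.ex, h1.ex, h2.wrX_false ho, ?_⟩
      rw [wrX_L]
      exact h3.imp_right fun h4 => ⟨by show _ ≤ (d.k0 : ℝ); linarith,
        by show (d.k0 : ℝ) + _ ≤ _; linarith, h4.2.2⟩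
    · refine ⟨d.rev w.L, h1.rev _, h2.wrX_true h1.eta ho, ?_⟩
      rw [wrX_L]
      rcases h3 with h3 | ⟨h4, h5, h6⟩
      · left
        exact ⟨by show -d.j = 0; rw [h3.1, neg_zero], h3.2⟩
      · right
        have e1 : ((w.L - d.k0 : ℕ) : ℝ) = (w.L : ℝ) - d.k0 := Nat.cast_sub h6
        refine ⟨?_, ?_, Nat.sub_le _ _⟩
        · show κ' * n ≤ ((w.L - d.k0 : ℕ) : ℝ)
          rw [e1]
          linarith
        · show ((w.L - d.k0 : ℕ) : ℝ) + κ' * n ≤ w.L
          rw [e1]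
          linarith
  Ztr n w a := Z_wtr hok n w a
  ZD {κ} _ := ⟨1, le_rfl, Eventually.of_forall fun n w _ => by rw [Z_wrD hom hc, one_mul]⟩
  ZX {κ} _ := ⟨1, le_rfl, Eventually.of_forall fun n w _ => by rw [Z_wrX hom hc, one_mul]⟩

end Vale.Agent.P167.H680.Q
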