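import Vale.Agent.P167.H680.Q.Legs

/-!
# P167, general `q`, block 2A: the final statement (abstract form)
-/

namespace Vale.Agent.P167.H680.Q

open Finset Filter Topology MeasureTheory
open Vale.Agent.P167.H592
open Vale.Agent.P167.H327 (fl)
open Vale.Agent.P167.H825 (epos dvg Box dv FlowIn enl domP lapl Lin3 os gX gY gD gA Sys)
open Vale.Agent.P167.H199 (KB bN pts)

theorem fc_zero {ι : Type} (w : ι → WallQ) : Fc (⟨w, 0⟩ : WCQ ι) := by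
  show (Function.support (0 : Ed → ℝ)).Finite
  simp

/-- **START** for the functional `V n` of the charges in the enlargement `enl S₀ n`: for all flows
in the domain the value of the walls with the flow `c` is the value of the walls times
`V n (dv c)`, up to a small relative error, for a suitable family of walls. -/
def StartV (om : Ins → ℂ) (Cl : Cls) (S₀ : Finset (ℤ × ℤ)) (b : Box)
    (V : ℕ → (ℤ × ℤ → ℝ) → ℂ) : Prop :=
  ∀ κ B : ℝ, 0 < κ → ∀ ε : ℝ, 0 < ε → ∃ (ι : Type) (_ : Fintype ι) (reg : ι → Fin 5)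
    (w : ℕ → ι → WallQ), Fam Cl S₀ b reg w ∧ ∃ c₀ : ℝ, 0 < c₀ ∧ ∀ᶠ n : ℕ in atTop,
    c₀ * ∏ i, Cl.Z n (w n i) ≤ (om (insW (⟨w n, 0⟩ : WCQ ι) (fc_zero (w n))).1).re ∧
    ∀ (c : Ed → ℝ) (hc : Fc (⟨w n, c⟩ : WCQ ι)), FlowIn (enl S₀ n) κ B n c →
      ‖om (insW (⟨w n, c⟩ : WCQ ι) hc).1 -
        ((om (insW (⟨w n, 0⟩ : WCQ ι) (fc_zero (w n))).1).re : ℂ) * V n (dv c)‖ ≤
      ε * (om (insW (⟨w n, 0⟩ : WCQ ι) (fc_zero (w n))).1).re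

/-- **Block 2A, abstract form.** -/
theorem s2a_abs {c : ℝ} (hc : 1 ≤ c) {om : Ins → ℂ} (hom : IsOm c om) (hok : (sysOm om).Ok)
    {Cl : Cls} (hCl : Cl.Ok) (hH : HOSQ om Cl) {σ : ℝ} (hY : CentreQ om σ)
    {S₀ : Finset (ℤ × ℤ)} {b : Box} {φ₁ φ₂ ψ : ℝ × ℝ → ℝ} (h : Dat S₀ b φ₁ φ₂ ψ) (s : ℝ)
    {V : ℕ → (ℤ × ℤ → ℝ) → ℂ} (hV : StartV om Cl S₀ b V) :
    Tendsto (fun n : ℕ => V n (H638.cm (fun x => dvg φ₁ φ₂ x + s * lapl ψ x) (1 / n)) -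
      (alpq σ (dvg φ₁ φ₂) ψ s : ℂ) * V n (H638.cm (dvg φ₁ φ₂) (1 / n))) atTop (𝓝 0) := by
  obtain ⟨κ₀, hκ₀, B, hB, hFl⟩ := h.flowIn s
  set α : ℝ := alpq σ (dvg φ₁ φ₂) ψ s with hα
  rw [Metric.tendsto_nhds]
  intro ε hε
  set ε' : ℝ := ε / (4 * (1 + |α|)) with hε'
  have hα1 : 0 < 1 + |α| := by positivity
  have hε'0 : 0 < ε' := by positivity
  set B' : ℝ := (#(univ : Finset (Fin 5)) : ℕ) * B with hB'
  obtain ⟨ι, _, reg, w, hF, c₀, hc₀, hev⟩ := hV κ₀ B' hκ₀ ε' hε'0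
  have HL := legs hc hom hok hCl hH hY h s hF
  have hL := (Metric.tendsto_nhds.1 HL) (c₀ * (ε / 2)) (by positivity)
  obtain ⟨κ₂, hκ₂, R₂, hgeo⟩ := hF.geo κ₀ hκ₀
  filter_upwards [hev, hL, hFl, hgeo 0, hCl.pos hκ₂, eventually_gt_atTop 0]
    with n a1 a2 a3 a4 a5 hn0
  obtain ⟨b1, b2⟩ := a1
  have f0 : FlowIn (enl S₀ n) κ₀ B' n (fun e => ∑ r, pf b φ₁ φ₂ n r e) :=
    flowIn_sum univ fun r _ => (a3 r).1
  have f1 : FlowIn (enl S₀ n) κ₀ B' n (fun e => ∑ r, pf1 b φ₁ φ₂ ψ s n r e) :=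
    flowIn_sum univ fun r _ => (a3 r).2
  have g0 := b2 _ (fc_pf h (w n) n) f0
  have g1 := b2 _ (fc_pf1 h s (w n) n) f1
  have hv0 : dv (fun e => ∑ r, pf b φ₁ φ₂ n r e) = H638.cm (dvg φ₁ φ₂) (1 / n) :=
    funext fun z => h.dv0 hn0 z
  have hv1 : dv (fun e => ∑ r, pf1 b φ₁ φ₂ ψ s n r e) =
      H638.cm (fun x => dvg φ₁ φ₂ x + s * lapl ψ x) (1 / n) := funext fun z => h.dv1 s hn0 z
  rw [hv0] at g0
  rw [hv1] at g1
  rw [dist_zero_right] at a2 ⊢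
  set V1 := V n (H638.cm (fun x => dvg φ₁ φ₂ x + s * lapl ψ x) (1 / n)) with hV1
  set V0 := V n (H638.cm (dvg φ₁ φ₂) (1 / n)) with hV0
  set E : ℝ := (om (insW (⟨w n, 0⟩ : WCQ ι) (fc_zero (w n))).1).re with hE
  set E1 : ℂ := om (insW (⟨w n, fun e => ∑ r, pf1 b φ₁ φ₂ ψ s n r e⟩ : WCQ ι)
    (fc_pf1 h s (w n) n)).1 with hE1
  set E0 : ℂ := om (insW (⟨w n, fun e => ∑ r, pf b φ₁ φ₂ n r e⟩ : WCQ ι)
    (fc_pf h (w n) n)).1 with hE0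
  set Z : ℝ := ∏ i, Cl.Z n (w n i) with hZ
  have hZ0 : 0 < Z := prod_pos fun i _ => a5 _ (a4.2.2 i)
  have hE0' : 0 < E := lt_of_lt_of_le (by positivity) b1
  rw [norm_div, Complex.norm_real, Real.norm_eq_abs, abs_of_pos hZ0, div_lt_iff₀ hZ0] at a2
  have e1 : ‖E1 - α * E0‖ < ε / 2 * E := by
    calc ‖E1 - α * E0‖ < c₀ * (ε / 2) * Z := a2
      _ = ε / 2 * (c₀ * Z) := by ring
      _ ≤ ε / 2 * E := mul_le_mul_of_nonneg_left b1 (by positivity)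
  have e2 : (1 + |α|) * ε' = ε / 4 := by
    rw [hε']
    field_simp
  have e3 : ‖(E : ℂ) * (V1 - α * V0)‖ < ε * E := by
    have e4 : (E : ℂ) * (V1 - α * V0) = (E1 - α * E0) - (E1 - E * V1) + α * (E0 - E * V0) := by
      ring
    rw [e4]
    have e5 : ‖(α : ℂ) * (E0 - E * V0)‖ ≤ |α| * (ε' * E) := by
      rw [norm_mul, Complex.norm_real, Real.norm_eq_abs]
      exact mul_le_mul_of_nonneg_left g0 (abs_nonneg _)
    have e6 : ‖(E1 - α * E0) - (E1 - E * V1) + α * (E0 - E * V0)‖ ≤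
        ‖E1 - α * E0‖ + ‖E1 - E * V1‖ + ‖(α : ℂ) * (E0 - E * V0)‖ :=
      (norm_add_le _ _).trans (add_le_add (norm_sub_le _ _) le_rfl)
    have e7 : ε' * E + |α| * (ε' * E) = ε / 4 * E := by
      rw [← e2]
      ring
    have e8 : ε / 2 * E + ε / 4 * E < ε * E := by nlinarith
    linarith
  rw [norm_mul, Complex.norm_real, Real.norm_eq_abs, abs_of_pos hE0', mul_comm ε E] at e3
  exact lt_of_mul_lt_mul_left e3 hE0'.le

end Vale.Agent.P167.H680.Q
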