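import Vale.Agent.P167.H680.Q.WC

/-!
# P167, general `q`, block 2A: reflection norms of configurations of walls, from an upper bound

`Cls`: a class of walls with normalisations `Z`. `HOSQ om Cl`: the values of all admissible
configurations of walls of the class are at most a constant times the product of the
normalisations.
-/

namespace Vale.Agent.P167.H680.Q

open Finset Filter Topology MeasureTheory
open Vale.Agent.P167.H592
open Vale.Agent.P167.H825 (Wall WC dv epos gX gY gD gA GDir Sys os)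
open Vale.Agent.P167.H199 (Fs pts nm_fst nm_snd npos_of nm_smul_le)
open Vale.Agent.P152 (Edge Ori vw wt)

/-- A class of walls (`P κ n w`: the wall `w` is in the class, with margins `κ`, at scale `n`) and
normalisations. -/
structure Cls where
  P : ℝ → ℕ → WallQ → Prop
  Z : ℕ → WallQ → ℝ

/-- The class is invariant under translations and reflections. -/
structure Cls.Ok (Cl : Cls) : Prop where
  mono : ∀ {κ κ' : ℝ} {n : ℕ} {w : WallQ}, κ' * n ≤ κ * n → Cl.P κ n w → Cl.P κ' n w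
  pos : ∀ {κ : ℝ}, 0 < κ → ∀ᶠ n : ℕ in atTop, ∀ w, Cl.P κ n w → 0 < Cl.Z n w
  tr : ∀ {κ : ℝ} {n : ℕ} {w : WallQ} (a : ℤ × ℤ), Cl.P κ n w → Cl.P κ n (wtr w a)
  rD : ∀ {κ : ℝ} {n : ℕ} {w : WallQ}, Cl.P κ n w → Cl.P κ n (wrD w)
  rX : ∀ {κ κ' : ℝ} {n : ℕ} {w : WallQ}, κ' * n + 1 ≤ κ * n → Cl.P κ n w → Cl.P κ' n (wrX w)
  Ztr : ∀ (n : ℕ) (w : WallQ) (a : ℤ × ℤ), Cl.Z n (wtr w a) = Cl.Z n w
  ZD : ∀ {κ : ℝ}, 0 < κ → ∃ C : ℝ, 1 ≤ C ∧ ∀ᶠ n : ℕ in atTop, ∀ w, Cl.P κ n w →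
    Cl.Z n (wrD w) ≤ C * Cl.Z n w
  ZX : ∀ {κ : ℝ}, 0 < κ → ∃ C : ℝ, 1 ≤ C ∧ ∀ᶠ n : ℕ in atTop, ∀ w, Cl.P κ n w →
    Cl.Z n (wrX w) ≤ C * Cl.Z n w

/-- All walls are in the class. -/
def WCQ.In {ι : Type} (Cl : Cls) (W : WCQ ι) (κ : ℝ) (n : ℕ) : Prop := ∀ i, Cl.P κ n (W.w i)

/-- The normalisation of a configuration. -/
noncomputable def WCQ.Z {ι : Type} [Fintype ι] (Cl : Cls) (W : WCQ ι) (n : ℕ) : ℝ :=
  ∏ i, Cl.Z n (W.w i)

/-- **Upper bound** for the values of the configurations with at most `M` walls. -/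
def HOSQ (om : Ins → ℂ) (Cl : Cls) : Prop :=
  ∀ (κ R B : ℝ) (M : ℕ), 0 < κ → ∃ C : ℝ, 0 < C ∧ ∀ᶠ n : ℕ in atTop,
    ∀ (ι : Type) [Fintype ι] (W : WCQ ι) (hc : Fc W), Fintype.card ι ≤ M → W.Adm κ R B n →
      W.In Cl κ n → ‖om (insW W hc).1‖ ≤ C * W.Z Cl n

section four

variable {ι : Type} [Fintype ι] {W : WCQ ι} {κ κ' R R' B : ℝ} {n : ℕ}

theorem Adm.rfX (h : W.Adm κ R B n) (m : ℤ) (hκ : κ' * n + 2 ≤ κ * n)
    (hR : R * n + 2 + 2 * |m| ≤ R' * n) : (rfX m W).Adm κ' R' B n := by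
  have hn := npos_of hκ
  have e1 : (R + 1 / n) * n = R * n + 1 := by field_simp
  have h1 := Adm.mX (κ' := κ') (R' := R + 1 / n) h (by linarith) (by linarith)
  refine Adm.tr h1 ?_
  have h2 : (nm (m • gX.s) : ℝ) ≤ 2 * |m| := by exact_mod_cast nm_smul_le m (s := (2, 0)) (by decide)
  push_cast at hR h2
  linarith

theorem Adm.rfD (h : W.Adm κ R B n) (m : ℤ) (hκ : κ' * n + 2 ≤ κ * n)
    (hR : R * n + 2 + 2 * |m| ≤ R' * n) : (rfD m W).Adm κ' R' B n := by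
  have h1 := Adm.mono (κ' := κ') (R' := R) (B' := B) (Adm.mD h) (by linarith) le_rfl le_rfl
  refine Adm.tr h1 ?_
  have h2 : (nm (m • gD.s) : ℝ) ≤ 2 * |m| := by exact_mod_cast nm_smul_le m (s := (1, -1)) (by decide)
  push_cast at hR h2
  linarith

theorem Adm.rfY (h : W.Adm κ R B n) (m : ℤ) (hκ : κ' * n + 2 ≤ κ * n)
    (hR : R * n + 2 + 2 * |m| ≤ R' * n) : (rfY m W).Adm κ' R' B n := by
  have hn := npos_of hκ
  have e1 : (R + 1 / n) * n = R * n + 1 := by field_simp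
  have h1 := Adm.mX (κ' := κ') (R' := R + 1 / n) (Adm.mD h) (by linarith) (by linarith)
  refine Adm.tr (Adm.mD h1) ?_
  have h2 : (nm (m • gY.s) : ℝ) ≤ 2 * |m| := by exact_mod_cast nm_smul_le m (s := (0, 2)) (by decide)
  push_cast at hR h2
  linarith

theorem Adm.rfA (h : W.Adm κ R B n) (m : ℤ) (hκ : κ' * n + 2 ≤ κ * n)
    (hR : R * n + 2 + 2 * |m| ≤ R' * n) : (rfA m W).Adm κ' R' B n := by
  have hn := npos_of hκ
  have e1 : (R + 1 / n) * n = R * n + 1 := by field_simp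
  have e2 : (R + 2 / n) * n = R * n + 2 := by field_simp
  have e3 : (κ - 1 / n) * n = κ * n - 1 := by field_simp
  have h1 := Adm.mX (κ' := κ - 1 / n) (R' := R + 1 / n) h (by linarith) (by linarith)
  have h2 := Adm.mX (κ' := κ') (R' := R + 2 / n) (Adm.mD h1) (by linarith) (by linarith)
  refine Adm.tr h2 ?_
  have h3 : (nm (m • gA.s) : ℝ) ≤ 2 * |m| := by exact_mod_cast nm_smul_le m (s := (1, 1)) (by decide)
  push_cast at hR h3
  linarith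

theorem pts_rfX {m : ℤ} {v : ℤ × ℤ} (hv : v ∈ pts (Q.rfX m W).old) :
    ∃ u ∈ pts W.old, |gX.l v - (2 * m - gX.l u)| ≤ 2 := by
  obtain ⟨u, hu, s, hs, h⟩ := pts_mX W ((pts_tr _ _).1 hv)
  refine ⟨u, hu, ?_⟩
  have h1 : v.1 - m * 2 = s - u.1 := congrArg Prod.fst h
  show |v.1 - (2 * m - u.1)| ≤ 2
  rw [abs_le]
  omega

theorem pts_rfD {m : ℤ} {v : ℤ × ℤ} (hv : v ∈ pts (Q.rfD m W).old) :
    ∃ u ∈ pts W.old, |gD.l v - (2 * m - gD.l u)| ≤ 2 := by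
  have h1 := pts_mD W ((pts_tr _ _).1 hv)
  refine ⟨_, h1, ?_⟩
  show |v.1 - v.2 - (2 * m - ((v.2 - m * (-1)) - (v.1 - m * 1)))| ≤ 2
  rw [abs_le]
  omega

theorem pts_rfY {m : ℤ} {v : ℤ × ℤ} (hv : v ∈ pts (Q.rfY m W).old) :
    ∃ u ∈ pts W.old, |gY.l v - (2 * m - gY.l u)| ≤ 2 := by
  obtain ⟨u, hu, s, hs, h⟩ := pts_mX _ (pts_mD _ ((pts_tr _ _).1 hv))
  refine ⟨_, pts_mD W hu, ?_⟩
  have h1 : v.2 - m * 2 = s - u.1 := congrArg Prod.fst h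
  show |v.2 - (2 * m - u.1)| ≤ 2
  rw [abs_le]
  omega

theorem pts_rfA {m : ℤ} {v : ℤ × ℤ} (hv : v ∈ pts (Q.rfA m W).old) :
    ∃ u ∈ pts W.old, |gA.l v - (2 * m - gA.l u)| ≤ 2 := by
  obtain ⟨u1, hu1, s, hs, h⟩ := pts_mX _ ((pts_tr _ _).1 hv)
  obtain ⟨u, hu, t, ht, h'⟩ := pts_mX W (pts_mD _ hu1)
  refine ⟨u, hu, ?_⟩
  have h1 : v.1 - m * 1 = s - u1.1 := congrArg Prod.fst h
  have h2 : v.2 - m * 1 = u1.2 := congrArg Prod.snd h
  have h3 : u1.2 = t - u.1 := congrArg Prod.fst h'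
  have h4 : u1.1 = u.2 := congrArg Prod.snd h'
  show |v.1 + v.2 - (2 * m - (u.1 + u.2))| ≤ 2
  rw [abs_le]
  omega

end four

/-! ### the classes -/

theorem In.mono {Cl : Cls} (hCl : Cl.Ok) {ι : Type} {W : WCQ ι} {κ κ' : ℝ} {n : ℕ}
    (hκ : κ' * n ≤ κ * n) (h : W.In Cl κ n) : W.In Cl κ' n := fun i => hCl.mono hκ (h i)

theorem In.tr {Cl : Cls} (hCl : Cl.Ok) {ι : Type} {W : WCQ ι} {κ : ℝ} {n : ℕ} (a : ℤ × ℤ)
    (h : W.In Cl κ n) : (tr W a).In Cl κ n := fun i => hCl.tr a (h i)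

theorem In.mD {Cl : Cls} (hCl : Cl.Ok) {ι : Type} {W : WCQ ι} {κ : ℝ} {n : ℕ}
    (h : W.In Cl κ n) : (mD W).In Cl κ n := fun i => hCl.rD (h i)

theorem In.mX {Cl : Cls} (hCl : Cl.Ok) {ι : Type} {W : WCQ ι} {κ κ' : ℝ} {n : ℕ}
    (hκ : κ' * n + 1 ≤ κ * n) (h : W.In Cl κ n) : (mX W).In Cl κ' n := fun i => hCl.rX hκ (h i)

theorem Z_tr {Cl : Cls} (hCl : Cl.Ok) {ι : Type} [Fintype ι] (W : WCQ ι) (n : ℕ) (a : ℤ × ℤ) :
    (tr W a).Z Cl n = W.Z Cl n := prod_congr rfl fun _ _ => hCl.Ztr n _ a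

theorem Z_pos {Cl : Cls} {ι : Type} [Fintype ι] {W : WCQ ι} {n : ℕ}
    (h : ∀ i, 0 < Cl.Z n (W.w i)) : 0 < W.Z Cl n := prod_pos fun i _ => h i

/-- A reflection of one wall which changes the normalisation by a constant. -/
def Zb (Cl : Cls) (f : WallQ → WallQ) : Prop :=
  ∀ κ : ℝ, 0 < κ → ∃ C : ℝ, 1 ≤ C ∧ ∀ᶠ n : ℕ in atTop, ∀ w, Cl.P κ n w →
    Cl.Z n (f w) ≤ C * Cl.Z n w

/-- Composition with a map which changes the margins by a constant. -/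
theorem Zb.comp {Cl : Cls} {f g : WallQ → WallQ} (hf : Zb Cl f) (hg : Zb Cl g)
    (hP : ∀ κ : ℝ, 0 < κ → ∀ᶠ n : ℕ in atTop, ∀ w, Cl.P κ n w → Cl.P (κ / 2) n (f w)) :
    Zb Cl fun w => g (f w) := by
  intro κ hκ
  obtain ⟨C, hC, h1⟩ := hf κ hκ
  obtain ⟨C', hC', h2⟩ := hg (κ / 2) (by positivity)
  refine ⟨C' * C, by nlinarith, ?_⟩
  filter_upwards [h1, h2, hP κ hκ] with n a1 a2 a3 w hw
  calc Cl.Z n (g (f w)) ≤ C' * Cl.Z n (f w) := a2 _ (a3 w hw)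
    _ ≤ C' * (C * Cl.Z n w) := mul_le_mul_of_nonneg_left (a1 w hw) (by linarith)
    _ = C' * C * Cl.Z n w := by ring

theorem Zb.tr {Cl : Cls} (hCl : Cl.Ok) {f : WallQ → WallQ} (hf : Zb Cl f) :
    ∀ {κ : ℝ}, 0 < κ → ∃ C : ℝ, 1 ≤ C ∧ ∀ᶠ n : ℕ in atTop, ∀ w, Cl.P κ n w → ∀ a : ℤ × ℤ,
      Cl.Z n (wtr (f w) a) ≤ C * Cl.Z n w := by
  intro κ hκ
  obtain ⟨C, hC, h1⟩ := hf κ hκ
  refine ⟨C, hC, ?_⟩
  filter_upwards [h1] with n a1 w hw a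
  rw [hCl.Ztr]
  exact a1 w hw

/-- A reflection of the configurations of walls for the reflections `θ` of the direction `D`. -/
structure RWQ (Cl : Cls) (D : GDir) (θ : ℤ → LIns → LIns)
    (rf : ∀ {ι : Type}, ℤ → WCQ ι → WCQ ι) : Prop where
  fc : ∀ {ι : Type} {W : WCQ ι}, Fc W → ∀ m, Fc (rf m W)
  ins : ∀ {ι : Type} [Fintype ι] {W : WCQ ι} (hc : Fc W) (m : ℤ),
    insW (rf m W) (fc hc m) = θ m (insW W hc)
  adm : ∀ {ι : Type} [Fintype ι] {W : WCQ ι} {κ κ' R R' B : ℝ} {n : ℕ}, W.Adm κ R B n →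
    ∀ m : ℤ, κ' * n + 2 ≤ κ * n → R * n + 2 + 2 * |m| ≤ R' * n → (rf m W).Adm κ' R' B n
  cls : ∀ {ι : Type} {W : WCQ ι} {κ κ' : ℝ} {n : ℕ}, W.In Cl κ n →
    ∀ m : ℤ, κ' * n + 2 ≤ κ * n → (rf m W).In Cl κ' n
  Z : ∀ {κ : ℝ}, 0 < κ → ∃ C : ℝ, 1 ≤ C ∧ ∀ᶠ n : ℕ in atTop, ∀ {ι : Type} (W : WCQ ι) (m : ℤ),
    W.In Cl κ n → ∀ i, Cl.Z n ((rf m W).w i) ≤ C * Cl.Z n (W.w i)
  pts : ∀ {ι : Type} [Fintype ι] {W : WCQ ι} {m : ℤ} {v : ℤ × ℤ}, v ∈ H199.pts (rf m W).old →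
    ∃ u ∈ H199.pts W.old, |D.l v - (2 * m - D.l u)| ≤ 2
  lin : ∀ u v, D.l (u - v) = D.l u - D.l v
  nm : ∀ u, |D.l u| ≤ 2 * P167.nm u

section rw

variable {Cl : Cls}

theorem ev_half {κ : ℝ} (hκ : 0 < κ) : ∀ᶠ n : ℕ in atTop, κ / 2 * n + 1 ≤ κ * n := by
  have h1 : Tendsto (fun n : ℕ => κ * n) atTop atTop :=
    tendsto_natCast_atTop_atTop.const_mul_atTop hκ
  filter_upwards [h1.eventually_ge_atTop 2] with n h1
  linarith

theorem P_rD (hCl : Cl.Ok) (κ : ℝ) (hκ : 0 < κ) : ∀ᶠ n : ℕ in atTop, ∀ w, Cl.P κ n w →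
    Cl.P (κ / 2) n (wrD w) := by
  filter_upwards [ev_half hκ] with n hn w hw
  exact hCl.mono (by linarith) (hCl.rD hw)

theorem P_rX (hCl : Cl.Ok) (κ : ℝ) (hκ : 0 < κ) : ∀ᶠ n : ℕ in atTop, ∀ w, Cl.P κ n w →
    Cl.P (κ / 2) n (wrX w) := by
  filter_upwards [ev_half hκ] with n hn w hw
  exact hCl.rX hn hw

theorem zb_X (hCl : Cl.Ok) : Zb Cl wrX := fun _ h => hCl.ZX h
theorem zb_D (hCl : Cl.Ok) : Zb Cl wrD := fun _ h => hCl.ZD h

theorem zb_DX (hCl : Cl.Ok) : Zb Cl fun w => wrX (wrD w) :=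
  (zb_D hCl).comp (zb_X hCl) (P_rD hCl)

theorem zb_XD (hCl : Cl.Ok) : Zb Cl fun w => wrD (wrX w) :=
  (zb_X hCl).comp (zb_D hCl) (P_rX hCl)

theorem zb_DXD (hCl : Cl.Ok) : Zb Cl fun w => wrD (wrX (wrD w)) :=
  (zb_DX hCl).comp (zb_D hCl) fun κ hκ => by
    filter_upwards [ev_half hκ] with n hn w hw
    exact hCl.rX hn (hCl.rD hw)

theorem zb_XDX (hCl : Cl.Ok) : Zb Cl fun w => wrX (wrD (wrX w)) :=
  (zb_XD hCl).comp (zb_X hCl) fun κ hκ => by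
    filter_upwards [ev_half hκ] with n hn w hw
    exact hCl.rD (hCl.rX hn hw)

theorem rwX (hCl : Cl.Ok) : RWQ Cl gX (fun m A => LIns.sh (m • gX.s) (LIns.th rX_lin A)) rfX where
  fc hc m := rfX_fc hc m
  ins hc m := insW_rfX _ hc m
  adm h m h1 h2 := by exact_mod_cast Adm.rfX h m h1 (by exact_mod_cast h2)
  cls {ι W κ κ' n} h m hκ := In.tr hCl _ (In.mX hCl (by linarith) h)
  Z {κ} hκ := by
    obtain ⟨C, hC, h⟩ := Zb.tr hCl (zb_X hCl) hκ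
    refine ⟨C, hC, ?_⟩
    filter_upwards [h] with n hn ι W m hW i
    exact hn _ (hW i) _
  pts hv := pts_rfX hv
  lin := H199.rwX.lin
  nm := H199.rwX.nm

theorem rwD (hCl : Cl.Ok) : RWQ Cl gD (fun m A => LIns.sh (m • gD.s) (LIns.th rD_lin A)) rfD where
  fc hc m := rfD_fc hc m
  ins hc m := insW_rfD _ hc m
  adm h m h1 h2 := by exact_mod_cast Adm.rfD h m h1 (by exact_mod_cast h2)
  cls {ι W κ κ' n} h m hκ := In.tr hCl _ (In.mono hCl (by linarith) (In.mD hCl h))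
  Z {κ} hκ := by
    obtain ⟨C, hC, h⟩ := Zb.tr hCl (zb_D hCl) hκ
    refine ⟨C, hC, ?_⟩
    filter_upwards [h] with n hn ι W m hW i
    exact hn _ (hW i) _
  pts hv := pts_rfD hv
  lin := H199.rwD.lin
  nm := H199.rwD.nm

theorem rwY (hCl : Cl.Ok) : RWQ Cl gY (fun m A => LIns.sh (m • gY.s) (thY A)) rfY where
  fc hc m := rfY_fc hc m
  ins hc m := insW_rfY _ hc m
  adm h m h1 h2 := by exact_mod_cast Adm.rfY h m h1 (by exact_mod_cast h2)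
  cls {ι W κ κ' n} h m hκ :=
    In.tr hCl _ (In.mD hCl (In.mX hCl (by linarith) (In.mD hCl h)))
  Z {κ} hκ := by
    obtain ⟨C, hC, h⟩ := Zb.tr hCl (zb_DXD hCl) hκ
    refine ⟨C, hC, ?_⟩
    filter_upwards [h] with n hn ι W m hW i
    exact hn _ (hW i) _
  pts hv := pts_rfY hv
  lin := H199.rwY.lin
  nm := H199.rwY.nm

theorem rwA (hCl : Cl.Ok) : RWQ Cl gA (fun m A => LIns.sh (m • gA.s) (thA A)) rfA where
  fc hc m := rfA_fc hc m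
  ins hc m := insW_rfA _ hc m
  adm h m h1 h2 := by exact_mod_cast Adm.rfA h m h1 (by exact_mod_cast h2)
  cls {ι W κ κ' n} h m hκ := by
    have hn : (0 : ℝ) < n := npos_of hκ
    have e1 : (κ - 1 / n) * n = κ * n - 1 := by field_simp
    exact In.tr hCl _ (In.mX hCl (κ := κ - 1 / n) (by linarith)
      (In.mD hCl (In.mX hCl (by linarith) h)))
  Z {κ} hκ := by
    obtain ⟨C, hC, h⟩ := Zb.tr hCl (zb_XDX hCl) hκ
    refine ⟨C, hC, ?_⟩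
    filter_upwards [h] with n hn ι W m hW i
    exact hn _ (hW i) _
  pts hv := pts_rfA hv
  lin := H199.rwA.lin
  nm := H199.rwA.nm

end rw

theorem Z_add2 {Cl : Cls} {ι ι' : Type} [Fintype ι] [Fintype ι'] (W : WCQ ι) (W' : WCQ ι')
    (n : ℕ) : (add2 W W').Z Cl n = W.Z Cl n * W'.Z Cl n := by
  unfold WCQ.Z
  rw [Fintype.prod_sum_type]
  rfl

/-- **Reflection norms of configurations of walls.** -/
theorem os_le {om : Ins → ℂ} {Cl : Cls} (hCl : Cl.Ok) (hH : HOSQ om Cl) {D : GDir}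
    {θ : ℤ → LIns → LIns} {rf : ∀ {ι : Type}, ℤ → WCQ ι → WCQ ι} (hD : RWQ Cl D θ rf)
    {κ : ℝ} (hκ : 0 < κ) (R B : ℝ) (M : ℕ) : ∃ C : ℝ, 0 < C ∧ ∀ᶠ n : ℕ in atTop,
    ∀ (ι : Type) [Fintype ι] (W : WCQ ι) (hc : Fc W), Fintype.card ι ≤ M → W.Adm κ R B n →
    W.In Cl κ n → ∀ m : ℤ, |(m : ℝ)| ≤ R * n →
    ((∀ u ∈ pts W.old, (m : ℝ) + κ * n ≤ D.l u) ∨
      (∀ u ∈ pts W.old, (D.l u : ℝ) ≤ m - κ * n)) →
    os (sysOm om) θ m (insW W hc) ≤ C * (W.Z Cl n) ^ 2 := by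
  obtain ⟨C, hC, h⟩ := hH (κ / 2) (3 * |R| + 2) (2 * B) (2 * M) (by positivity)
  obtain ⟨C', hC', hZ⟩ := hD.Z hκ
  have hC'0 : 0 ≤ C' := by linarith
  refine ⟨C * C' ^ M, by positivity, ?_⟩
  have hlarge : ∀ᶠ n : ℕ in atTop, 4 ≤ κ * n ∧ (1 : ℝ) ≤ n := by
    have h1 : Tendsto (fun n : ℕ => κ * n) atTop atTop :=
      tendsto_natCast_atTop_atTop.const_mul_atTop hκ
    filter_upwards [h1.eventually_ge_atTop 4, eventually_ge_atTop 1] with n h1 h2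
    exact ⟨h1, by exact_mod_cast h2⟩
  filter_upwards [h, hlarge, hZ, hCl.pos (show 0 < κ / 2 by positivity), hCl.pos hκ]
    with n hn hl hZn hpos2 hpos1 ι _ W hc hcard hA hI m hm hside
  have hRn : R * n ≤ |R| * n := by
    gcongr
    exact le_abs_self R
  have h2n : (2 : ℝ) ≤ 2 * n := by linarith [hl.2]
  have hA1 : W.Adm (κ / 2) (3 * |R| + 2) B n := by
    refine Adm.mono hA (by linarith) ?_ le_rfl
    nlinarith [abs_nonneg R]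
  have hA2 : (rf m W).Adm (κ / 2) (3 * |R| + 2) B n := by
    refine hD.adm hA m (by linarith) ?_
    push_cast
    nlinarith [abs_nonneg R]
  have hI1 : W.In Cl (κ / 2) n := In.mono hCl (by linarith) hI
  have hI2 : (rf m W).In Cl (κ / 2) n := hD.cls hI m (by linarith)
  have hfar : ∀ u ∈ pts W.old, ∀ v ∈ pts (rf m W).old, κ / 2 * n ≤ (nm (u - v) : ℝ) := by
    intro u hu v hv
    obtain ⟨u', hu', h1⟩ := hD.pts hv
    have h2 := hD.nm (u - v)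
    rw [hD.lin] at h2
    rw [abs_le] at h1 h2
    have h1a : (-2 : ℝ) ≤ D.l v - (2 * m - D.l u') := by exact_mod_cast h1.1
    have h1b : (D.l v - (2 * m - D.l u') : ℝ) ≤ 2 := by exact_mod_cast h1.2
    have h2a : (-(2 * nm (u - v)) : ℝ) ≤ D.l u - D.l v := by exact_mod_cast h2.1
    have h2b : (D.l u - D.l v : ℝ) ≤ 2 * nm (u - v) := by exact_mod_cast h2.2
    rcases hside with hs | hs
    · have h3 := hs u hu
      have h4 := hs u' hu'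
      linarith
    · have h3 := hs u hu
      have h4 := hs u' hu'
      linarith
  have hA3 : (add2 W (rf m W)).Adm (κ / 2) (3 * |R| + 2) (2 * B) n := Adm.add2 hA1 hA2 hfar
  have hI3 : (add2 W (rf m W)).In Cl (κ / 2) n := by
    rintro (i | i)
    · exact hI1 i
    · exact hI2 i
  have h1 : os (sysOm om) θ m (insW W hc) =
      (om (insW (add2 W (rf m W)) (add2_fc hc (hD.fc hc m))).1).re := by
    show (om (insW W hc * θ m (insW W hc)).1).re = _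
    rw [← hD.ins hc m, ← insW_add2 hc (hD.fc hc m)]
  rw [h1]
  have h2 := hn (ι ⊕ ι) (add2 W (rf m W)) (add2_fc hc (hD.fc hc m))
    (by rw [Fintype.card_sum]; omega) hA3 hI3
  refine (Complex.re_le_norm _).trans (h2.trans ?_)
  rw [Z_add2]
  have h3 : 0 < W.Z Cl n := Z_pos fun i => hpos1 _ (hI i)
  have h4 : (rf m W).Z Cl n ≤ C' ^ M * W.Z Cl n := by
    calc (rf m W).Z Cl n ≤ ∏ i, C' * Cl.Z n (W.w i) :=
          prod_le_prod (fun i _ => (hpos2 _ (hI2 i)).le) fun i _ => hZn W m hI i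
      _ = C' ^ Fintype.card ι * W.Z Cl n := by
          rw [prod_mul_distrib, prod_const, card_univ]
          rfl
      _ ≤ C' ^ M * W.Z Cl n := by
          refine mul_le_mul_of_nonneg_right ?_ h3.le
          exact pow_le_pow_right₀ hC' hcard
  calc C * (W.Z Cl n * (rf m W).Z Cl n) ≤ C * (W.Z Cl n * (C' ^ M * W.Z Cl n)) := by gcongr
    _ = C * C' ^ M * W.Z Cl n ^ 2 := by ring

end Vale.Agent.P167.H680.Q
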