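import Vale.Agent.P167.H199.OsW

/-!
# P167, general `q`, block 2A: walls with arbitrary phases

`WallQ`: a straight family of cut medial edges with a phase on each face of each edge. Insertions,
unions, translations and reflections. Positions are those of the wall `old` of the case `q = 1`.
-/

namespace Vale.Agent.P167.H680.Q

open Finset Filter Topology MeasureTheory
open Vale.Agent.P167.H592
open Vale.Agent.P167.H825 (Wall WC dv epos gX gY gD gA)
open Vale.Agent.P167.H199 (Fs exO phO exO_eq phO_eq phO_add phO_zero shA thP)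
open Vale.Agent.P152 (Edge Ori vw wt)

/-! ### insertions given by phases, not normalised -/

/-- The phase insertion. -/
noncomputable def insP (S : Finset Ed) (a : Ed → Bool → ℝ) (ha : Fs a) : LIns :=
  ⟨⟨S, fun ω => phO a ω⟩, by
    classical
    refine ⟨Set.Finite.toFinset ha ∪ S, fun e _ => mem_EdT_univ e, subset_union_right, ?_⟩
    intro ω ω' h
    show phO a ω = phO a ω'
    unfold phO
    rw [exO_eq ha.off, exO_eq ha.off]
    congr 3
    refine sum_congr rfl fun e he => ?_
    rw [h e (mem_union_left _ he)]⟩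

theorem insP_S (S : Finset Ed) (a : Ed → Bool → ℝ) (ha : Fs a) : (insP S a ha).1.S = S := rfl

theorem insP_F (S : Finset Ed) (a : Ed → Bool → ℝ) (ha : Fs a) (ω : HO (ℤ × ℤ)) :
    (insP S a ha).1.F ω = phO a ω := rfl

theorem insP_congr {S S' : Finset Ed} {a a' : Ed → Bool → ℝ} (hS : S = S') (ha : a = a')
    (h : Fs a) (h' : Fs a') : insP S a h = insP S' a' h' := by
  subst hS ha
  rfl

theorem insP_mul {S S' : Finset Ed} {a a' : Ed → Bool → ℝ} (h : Fs a)
    (h' : Fs a') : insP (S ∪ S') (a + a') (h.add h') = insP S a h * insP S' a' h' := by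
  refine LIns.ext' rfl fun ω => ?_
  rw [LIns.mul_F, insP_F, insP_F, insP_F, phO_add h h']

theorem insP_one : insP ∅ 0 Fs.zero = 1 := by
  refine LIns.ext' rfl fun ω => ?_
  rw [insP_F, phO_zero, LIns.one_F]

theorem insP_prod {I : Type} [DecidableEq I] (A : Finset I) (S : I → Finset Ed)
    (a : I → Ed → Bool → ℝ) (h : ∀ i, Fs (a i)) (h' : Fs (∑ i ∈ A, a i)) :
    insP (A.biUnion S) (∑ i ∈ A, a i) h' = ∏ i ∈ A, insP (S i) (a i) (h i) := by
  induction A using Finset.induction_on with
  | empty => exact (insP_congr rfl rfl _ _).trans insP_one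
  | insert i A hi ih =>
    have hA : Fs (∑ j ∈ A, a j) := by
      clear ih h' hi
      induction A using Finset.induction_on with
      | empty => exact Fs.zero
      | insert j A hj ih => rw [sum_insert hj]; exact (h j).add ih
    rw [prod_insert hi, ← ih hA, ← insP_mul]
    exact insP_congr biUnion_insert (sum_insert hi) _ _

theorem insP_sh (S : Finset Ed) (a : Ed → Bool → ℝ) (ha : Fs a) (v : ℤ × ℤ) :
    insP (S.image (shE v)) (shA v a) (ha.sh v) = LIns.sh v (insP S a ha) := by
  refine LIns.ext' rfl fun ω => ?_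
  show phO (shA v a) ω = phO a (shH v ω)
  unfold phO
  rw [H199.exO_sh]

variable {P : Rf (ℤ × ℤ)} {l : ℤ × ℤ → ℤ × ℤ}

theorem insP_th (hP : P.Lin l) (S : Finset Ed) (a : Ed → Bool → ℝ) (ha : Fs a) :
    insP (S.image P.ρ) (thP P a) (ha.th hP) = LIns.th hP (insP S a ha) := by
  refine LIns.ext' rfl fun ω => ?_
  show phO (thP P a) ω = (starRingEnd ℂ) (phO a (P.act ω))
  unfold phO
  rw [H199.exO_th hP, ← Complex.exp_conj, map_mul, Complex.conj_I, Complex.conj_ofReal]
  push_cast
  ring_nf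

/-! ### one wall -/

/-- A wall with phases `u` on the face `false` (left or lower) and `v` on the face `true` (right or
upper); phases of an arrow which points away from the wall. -/
structure WallQ where
  o : Bool
  q : ℤ × ℤ
  L : ℕ
  u : ℕ → ℝ
  v : ℕ → ℝ

/-- The wall without phases. -/
noncomputable def WallQ.old (w : WallQ) : Wall := ⟨w.o, w.q, w.L, 0, true, 0, 0⟩

/-- The `k`-th cut edge. -/
def WallQ.e (w : WallQ) (k : ℕ) : Ed :=
  if w.o then Sum.inr (w.q.1 + k, w.q.2) else Sum.inl (w.q.1, w.q.2 + k)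

/-- The cut edges. -/
def WallQ.S (w : WallQ) : Finset Ed := (range w.L).image w.e

theorem WallQ.old_e (w : WallQ) (k : ℕ) : w.old.e k = w.e k := rfl

theorem WallQ.old_S (w : WallQ) : w.old.S = w.S := rfl

/-- The phases at the `k`-th edge. -/
noncomputable def wv (w : WallQ) (k : ℕ) (b : Bool) : ℝ := if b then w.v k else - w.u k

/-- Phases of the half arrows. -/
noncomputable def WallQ.ph (w : WallQ) (e : Ed) (b : Bool) : ℝ :=
  ∑ k ∈ range w.L, if e = w.e k then wv w k b else 0

theorem ph_def (w : WallQ) (e : Ed) (b : Bool) :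
    w.ph e b = ∑ k ∈ range w.L, if e = w.e k then wv w k b else 0 := rfl

theorem ph_off {w : WallQ} {e : Ed} (he : e ∉ w.S) : w.ph e = 0 := by
  funext b
  rw [ph_def]
  refine sum_eq_zero fun k hk => if_neg fun h => he ?_
  rw [h]
  exact mem_image_of_mem _ hk

/-- A wall mapped by a bijection `r` of the edges which keeps the order. -/
theorem ph_map {w w' : WallQ} (hL : w'.L = w.L) {r : Ed → Ed} (hr : ∀ e, r (r e) = e)
    (he : ∀ k < w.L, w'.e k = r (w.e k)) (e : Ed) (b : Bool) :
    w'.ph e b = ∑ k ∈ range w.L, if r e = w.e k then wv w' k b else 0 := by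
  rw [ph_def, hL]
  refine sum_congr rfl fun k hk => ?_
  rw [he k (mem_range.1 hk)]
  congr 1
  apply propext
  constructor
  · intro h
    rw [h, hr]
  · intro h
    rw [← h, hr]

/-- translations -/
def wtr (w : WallQ) (a : ℤ × ℤ) : WallQ := { w with q := w.q + a }

theorem wtr_e (w : WallQ) (a : ℤ × ℤ) (k : ℕ) : (wtr w a).e k = shE a (w.e k) :=
  H199.wtr_e w.old a k

theorem wtr_ph (w : WallQ) (a : ℤ × ℤ) : (wtr w a).ph = shA a w.ph := by
  funext e b
  show _ = w.ph (shE (-a) e) b
  rw [ph_def, ph_def]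
  refine sum_congr rfl fun k _ => ?_
  rw [wtr_e]
  have h1 : (e = shE a (w.e k)) ↔ (shE (-a) e = w.e k) := by
    constructor
    · intro h
      rw [h, shE_shE, neg_add_cancel, shE_zero]
    · intro h
      rw [← h, shE_shE, add_neg_cancel, shE_zero]
  simp only [h1]
  rfl

theorem wtr_S (w : WallQ) (a : ℤ × ℤ) : (wtr w a).S = w.S.image (shE a) := by
  unfold WallQ.S
  rw [image_image]
  exact image_congr fun k _ => wtr_e w a k

/-- reflection in the diagonal -/
def wrD (w : WallQ) : WallQ := { w with o := !w.o, q := (w.q.2, w.q.1) }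

theorem wrD_e (w : WallQ) (k : ℕ) : (wrD w).e k = rD.ρ (w.e k) := H199.wrD_e w.old k

theorem wrD_ph (w : WallQ) : (wrD w).ph = thP rD w.ph := by
  funext e b
  rw [ph_map (w := w) (w' := wrD w) rfl (r := rD.ρ) rD_lin.ok.ρρ fun k _ => wrD_e w k]
  show _ = (if true then (1 : ℝ) else -1) * w.ph (rD.ρ e) (xor false b)
  rw [if_pos rfl, one_mul, Bool.false_xor]
  rfl

theorem wrD_S (w : WallQ) : (wrD w).S = w.S.image rD.ρ := by
  unfold WallQ.S
  rw [image_image]
  exact image_congr fun k _ => wrD_e w k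

/-- reflection in the columns -/
def wrX (w : WallQ) : WallQ :=
  if w.o then ⟨true, (2 - w.q.1 - w.L, w.q.2), w.L, fun k => w.u (w.L - 1 - k),
    fun k => w.v (w.L - 1 - k)⟩
  else ⟨false, (-w.q.1, w.q.2), w.L, w.v, w.u⟩

theorem wrX_true {w : WallQ} (ho : w.o = true) : wrX w = ⟨true, (2 - w.q.1 - w.L, w.q.2), w.L,
    fun k => w.u (w.L - 1 - k), fun k => w.v (w.L - 1 - k)⟩ := by
  unfold wrX
  rw [if_pos ho]

theorem wrX_false {w : WallQ} (ho : w.o = false) :
    wrX w = ⟨false, (-w.q.1, w.q.2), w.L, w.v, w.u⟩ := by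
  unfold wrX
  rw [if_neg (by simp [ho])]

theorem wrX_L (w : WallQ) : (wrX w).L = w.L := by
  unfold wrX
  split_ifs <;> rfl

theorem wrX_e_true {w : WallQ} (ho : w.o = true) {k : ℕ} (hk : k < w.L) :
    (wrX w).e (w.L - 1 - k) = (rX ℤ ℤ).ρ (w.e k) := by
  rw [wrX_true ho]
  have h2 : w.e k = Sum.inr (w.q.1 + k, w.q.2) := by unfold WallQ.e; rw [if_pos ho]
  rw [h2]
  show (Sum.inr (2 - w.q.1 - w.L + ((w.L - 1 - k : ℕ) : ℤ), w.q.2) : Ed) =
    Sum.inr (1 - (w.q.1 + k), w.q.2)
  congr 2
  omega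

theorem wrX_e_false {w : WallQ} (ho : w.o = false) (k : ℕ) :
    (wrX w).e k = (rX ℤ ℤ).ρ (w.e k) := by
  rw [wrX_false ho]
  have h2 : w.e k = Sum.inl (w.q.1, w.q.2 + k) := by unfold WallQ.e; rw [if_neg (by simp [ho])]
  rw [h2]
  rfl

theorem wrX_S (w : WallQ) : (wrX w).S = w.S.image (rX ℤ ℤ).ρ := by
  cases ho : w.o
  · unfold WallQ.S
    rw [image_image, wrX_L]
    exact image_congr fun k _ => wrX_e_false ho k
  · unfold WallQ.S
    rw [image_image, wrX_L]
    ext e
    simp only [mem_image, mem_range, Function.comp]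
    constructor
    · rintro ⟨k, hk, rfl⟩
      refine ⟨w.L - 1 - k, by omega, ?_⟩
      rw [← wrX_e_true ho (by omega)]
      congr 1
      omega
    · rintro ⟨k, hk, rfl⟩
      exact ⟨w.L - 1 - k, by omega, wrX_e_true ho hk⟩

theorem wrX_ph (w : WallQ) : (wrX w).ph = thP (rX ℤ ℤ) w.ph := by
  cases ho : w.o
  · funext e b
    rw [ph_map (w := w) (wrX_L w) (r := (rX ℤ ℤ).ρ) rX_lin.ok.ρρ fun k _ => wrX_e_false ho k]
    show _ = (if (rX ℤ ℤ).s e then (1 : ℝ) else -1) * w.ph ((rX ℤ ℤ).ρ e)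
      (xor ((rX ℤ ℤ).t e) b)
    rcases e with v | v
    · show _ = (if false then (1 : ℝ) else -1) * w.ph ((rX ℤ ℤ).ρ (Sum.inl v)) (xor true b)
      rw [if_neg (by simp), Bool.true_xor, ph_def, mul_sum]
      refine sum_congr rfl fun k _ => ?_
      by_cases hh : (rX ℤ ℤ).ρ (Sum.inl v) = w.e k
      · rw [if_pos hh, if_pos hh]
        unfold wv
        rw [wrX_false ho]
        cases b <;> simp
      · rw [if_neg hh, if_neg hh, mul_zero]
    · have h2 : ∀ k, (rX ℤ ℤ).ρ (Sum.inr v) ≠ w.e k := by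
        intro k hk
        have h3 : w.e k = Sum.inl (w.q.1, w.q.2 + k) := by
          unfold WallQ.e; rw [if_neg (by simp [ho])]
        rw [h3] at hk
        exact Sum.inr_ne_inl hk
      rw [ph_def, sum_eq_zero fun k _ => if_neg (h2 k), sum_eq_zero fun k _ => if_neg (h2 k),
        mul_zero]
  · funext e b
    rw [ph_def, wrX_L, ← sum_range_reflect]
    show _ = (if (rX ℤ ℤ).s e then (1 : ℝ) else -1) * w.ph ((rX ℤ ℤ).ρ e)
      (xor ((rX ℤ ℤ).t e) b)
    have hiff : ∀ k < w.L, (e = (wrX w).e (w.L - 1 - k)) ↔ ((rX ℤ ℤ).ρ e = w.e k) := by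
      intro k hk
      rw [wrX_e_true ho hk]
      constructor
      · intro h
        rw [h, rX_lin.ok.ρρ]
      · intro h
        rw [← h, rX_lin.ok.ρρ]
    rcases e with v | v
    · have h2 : ∀ k, (rX ℤ ℤ).ρ (Sum.inl v) ≠ w.e k := by
        intro k hk
        have h3 : w.e k = Sum.inr (w.q.1 + k, w.q.2) := by
          unfold WallQ.e; rw [if_pos ho]
        rw [h3] at hk
        exact Sum.inl_ne_inr hk
      rw [ph_def, sum_eq_zero fun k hk => if_neg fun h => h2 k ((hiff k (mem_range.1 hk)).1 h),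
        sum_eq_zero fun k _ => if_neg (h2 k), mul_zero]
    · show _ = (if true then (1 : ℝ) else -1) * w.ph ((rX ℤ ℤ).ρ (Sum.inr v)) (xor false b)
      rw [if_pos rfl, one_mul, Bool.false_xor, ph_def]
      refine sum_congr rfl fun k hk => ?_
      have hk' := mem_range.1 hk
      by_cases hh : (rX ℤ ℤ).ρ (Sum.inr v) = w.e k
      · rw [if_pos hh, if_pos ((hiff k hk').2 hh)]
        have e1 : w.L - 1 - (w.L - 1 - k) = k := by omega
        unfold wv
        rw [wrX_true ho]
        simp only [e1]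
      · rw [if_neg hh, if_neg fun h => hh ((hiff k hk').1 h)]

end Vale.Agent.P167.H680.Q
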