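import Vale.Agent.P167.H680.Q.Legs

/-!
# P167, general `q`, block 2A: the centre for all `c = 2 cos (l / 2)`, `0 < l < π / 2`
-/

namespace Vale.Agent.P167.H680.Q

open Finset Filter Topology MeasureTheory ProbabilityTheory
open Vale.Agent.P152
open Vale.Agent.P152.GFF.S
open Vale.Agent.P167.H825 (RY os dvg gY)
open Vale.Agent.P167.H327 (fl)
open Vale.Agent.P167.H592
open Vale.Agent.P167.H199 (phF)
open Vale.Agent.P152.GFF (hi_all gen_slice stWeak bTr_hi Pln)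
open Vale.Agent.P167.H638.YG (YI YI_local YI_dbl RYh RYh_dbl ρYe om_eq Yf Yf_meas Yf_le tot al fc Lp yg_plane)

/-- The plane measure at `c = 2 cos (l / 2)`, with all that is used here. -/
theorem exists_plane {l : ℝ} (h0 : 0 < l) (hl : l < Real.pi / 2) :
    ∃ P : Measure (Ori (ℤ × ℤ)), IsProbabilityMeasure P ∧ GFF.TorI (2 * Real.cos (l / 2)) P ∧
    (∀ᵐ ω ∂P, ∃ h, IsHeight ω h) ∧ (∀ᵐ ω ∂P, ∀ x y, Ice ω x y) ∧
    (∃ C : ℝ, 0 ≤ C ∧ GD P C) ∧ SliceCLT P (2 / (Real.pi - l)) := by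
  have hpi := Real.pi_pos
  have hc0 : 0 < 2 * Real.cos (l / 2) := Vale.Agent.P152.GFF.V3.cos_half_pos h0 (by linarith)
  have hcl : 0 < Real.cos l := Real.cos_pos_of_mem_Ioo ⟨by linarith, hl⟩
  have hc2 : 2 < (2 * Real.cos (l / 2)) ^ 2 := by
    have h2 : Real.cos l = 2 * Real.cos (l / 2) ^ 2 - 1 := by
      rw [← Real.cos_two_mul]; congr 1; ring
    nlinarith
  have hcle : 2 * Real.cos (l / 2) ≤ 2 := by linarith [Real.cos_le_one (l / 2)]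
  have hT : Vale.Agent.P152.GFF.V5.BTr (2 * Real.cos (l / 2)) :=
    bTr_hi Vale.Agent.P152.GFF.V2C.normT h0 hl.le
  have hloc : Vale.Agent.P152.GFF.V6.St_loc l := by
    obtain ⟨C0, hC0⟩ := hT
    exact Vale.Agent.P152.GFF.V6.st_loc_hi h0 hl (C0 := C0) hC0
  obtain ⟨P, hP, hR, hch, -⟩ := hi_all hc0 hc2 hcle
  have := hP.prob
  obtain ⟨κ, hκ, hS, hV⟩ := gen_slice hc0 hP hch stWeak
  have hle := Vale.Agent.P152.GFF.V5.kap_le h0 (by linarith)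
    (Vale.Agent.P152.GFF.V3.secLim_lo h0 hl.le) (Vale.Agent.P152.GFF.V3.dblLim_lo h0 hl.le) hT hP
    hκ hS
  have hge := Vale.Agent.P152.GFF.V6.kap_ge h0 hl.le hP
    (Vale.Agent.P152.GFF.V6.chE_hi h0 hl hP hR) hV hloc
  have hκ' : κ = 2 / (Real.pi - l) := le_antisymm hle hge
  obtain ⟨hsub, hice⟩ := hP.ice
  refine ⟨P, hP.prob, hP.tor, Vale.Agent.P152.exists_height_ae hsub, hice, hP.gd, ?_⟩
  rw [← hκ']
  exact hS

/-- **Block YG.** The reflection norm of the centre of the legs tends to zero. -/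
theorem yg_om {l : ℝ} (h0 : 0 < l) (hl : l < Real.pi / 2) {om : Ins → ℂ}
    (hom : IsOm (2 * Real.cos (l / 2)) om) {g ψ : ℝ × ℝ → ℝ}
    (hg : Test g) (hψ : ContDiff ℝ ((⊤ : ℕ∞) : WithTop ℕ∞) ψ) (cψ : HasCompactSupport ψ)
    {yb y' : ℝ} (hgs : ∀ x, g x ≠ 0 → yb ≤ x.2) (hψs : ∀ x, ψ x ≠ 0 → yb ≤ x.2)
    (hy' : y' < yb) (s : ℝ) {m : ℕ → ℤ} {δ : ℕ → ℝ} (hδ : Tendsto δ atTop (𝓝[>] 0))
    (hm : Tendsto (fun n => (m n : ℝ) * δ n) atTop (𝓝 y'))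
    {E : ℕ → Finset (Edge (ℤ × ℤ))} {A B : ℕ → Edge (ℤ × ℤ) → Bool → ℝ}
    (hA : ∀ n, ∀ e ∉ E n, tot (A n) e = 0) (hB : ∀ n, ∀ e ∉ E n, tot (B n) e = 0)
    (dA : ∀ n v, H685.dv (tot (A n)) v = fc g (δ n) v)
    (dB : ∀ n v, H685.dv (tot (B n)) v = s * fc (Lp ψ) (δ n) v) :
    Tendsto (fun n => om ⟨∅, fun ω => YI (E n) (A n) (B n) (al (2 / (Real.pi - l)) s g ψ) ω *
      (starRingEnd ℂ) (YI (E n) (A n) (B n) (al (2 / (Real.pi - l)) s g ψ) (RYh (m n) ω))⟩)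
      atTop (𝓝 0) := by
  classical
  obtain ⟨P, hP, hT, hex, hice, ⟨C, hC, hGD⟩, hS⟩ := exists_plane h0 hl
  have key := yg_plane hC hGD hice hS hex hg hψ cψ hgs hψs hy' s hδ hm hA hB dA dB
  refine key.congr fun n => ?_
  set α := al (2 / (Real.pi - l)) s g ψ
  set F : HO (ℤ × ℤ) → ℂ := fun ω => YI (E n) (A n) (B n) α ω *
    (starRingEnd ℂ) (YI (E n) (A n) (B n) α (RYh (m n) ω)) with hF
  have hloc : ∀ ω ω' : HO (ℤ × ℤ), (∀ e ∈ E n ∪ (E n).image (ρYe (m n)), ω e = ω' e) →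
      F ω = F ω' := by
    intro ω ω' h
    simp only [hF]
    rw [YI_local (E n) (A n) (B n) α ω ω' fun e he => h e (mem_union_left _ he),
      YI_local (E n) (A n) (B n) α (RYh (m n) ω) (RYh (m n) ω') fun e he => ?_]
    have h1 := h _ (mem_union_right _ (mem_image_of_mem (ρYe (m n)) he))
    funext b
    rcases e with v | v
    · show (!(ω (Sum.inl (v.1, 2 * m n - v.2 + 1)) b)) =
        !(ω' (Sum.inl (v.1, 2 * m n - v.2 + 1)) b)
      have h2 : ω (Sum.inl (v.1, 2 * m n - v.2 + 1)) = ω' (Sum.inl (v.1, 2 * m n - v.2 + 1)) := h1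
      rw [h2]
    · show ω (Sum.inr (v.1, 2 * m n - v.2)) (!b) = ω' (Sum.inr (v.1, 2 * m n - v.2)) (!b)
      have h2 : ω (Sum.inr (v.1, 2 * m n - v.2)) = ω' (Sum.inr (v.1, 2 * m n - v.2)) := h1
      rw [h2]
  rw [om_eq hom hT hloc]
  have hFd : ∀ ω : Ori (ℤ × ℤ), F (dbl ω) = Yf (E n) (tot (A n)) (tot (B n)) α ω *
      (starRingEnd ℂ) (Yf (E n) (tot (A n)) (tot (B n)) α (RY (m n) ω)) := by
    intro ω
    simp only [hF]
    rw [YI_dbl, RYh_dbl, YI_dbl]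
  simp only [hFd]
  have hm : Integrable (fun ω => Yf (E n) (tot (A n)) (tot (B n)) α ω *
      (starRingEnd ℂ) (Yf (E n) (tot (A n)) (tot (B n)) α (RY (m n) ω))) P := by
    have h1 : Measurable (Yf (E n) (tot (A n)) (tot (B n)) α) := Yf_meas _ _ _ _
    have h2 : Measurable (RY (m n)) := (Vale.Agent.P167.H825.aY_good).meas (m n)
    refine Integrable.of_bound (C := (1 + |α|) * (1 + |α|))
      (h1.mul (Complex.continuous_conj.measurable.comp (h1.comp h2))).aestronglyMeasurable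
      (Eventually.of_forall fun ω => ?_)
    rw [norm_mul, RCLike.norm_conj]
    exact mul_le_mul (Yf_le _ _ _ _ _) (Yf_le _ _ _ _ _) (norm_nonneg _) (by positivity)
  exact (integral_re_add_im hm).symm


/-- The two forms of the constant `α`. -/
theorem al_eq {b : H825.Box} {φ₁ φ₂ ψ : ℝ × ℝ → ℝ} {s : ℝ} (σ : ℝ) (hsub : tsupport ψ ⊆ {x | b.xl < x.1 ∧ x.1 < b.xr ∧ b.yb < x.2 ∧ x.2 < b.yt})
    (hlr : b.xl < b.xr) (hbt : b.yb < b.yt)
    (hd1 : Disjoint (tsupport φ₁) b.lines) (hd2 : Disjoint (tsupport φ₂) b.lines) :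
    al σ s (dvg (prt b 4 φ₁) (prt b 4 φ₂)) ψ = alpq σ (dvg φ₁ φ₂) ψ s := by
  have h1 : ∀ x, dvg (prt b 4 φ₁) (prt b 4 φ₂) x * ψ x = dvg φ₁ φ₂ x * ψ x := by
    intro x
    rw [dvg_prt hlr hbt hd1 hd2]
    by_cases hx : x ∈ Rg b 4
    · rw [prt_of_mem hx]
    · have : ψ x = 0 := by
        by_contra hne
        exact hx (hsub (subset_tsupport _ hne))
      rw [this, mul_zero, mul_zero]
  unfold al alpq H638.YG.En H638.YG.dd
  rw [integral_congr_ae (ae_of_all _ h1)]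
  congr 1
  ring

/-- **The reflection norm of the centre tends to zero.** -/
theorem centre_os {l : ℝ} (h0 : 0 < l) (hl : l < Real.pi / 2) {om : Ins → ℂ}
    (hom : IsOm (2 * Real.cos (l / 2)) om) {b : H825.Box} {φ₁ φ₂ ψ : ℝ × ℝ → ℝ} (hlr : b.xl < b.xr) (hbt : b.yb < b.yt)
    (h1 : ContDiff ℝ ((⊤ : ℕ∞) : WithTop ℕ∞) φ₁) (h2 : ContDiff ℝ ((⊤ : ℕ∞) : WithTop ℕ∞) φ₂)
    (hψ : ContDiff ℝ ((⊤ : ℕ∞) : WithTop ℕ∞) ψ)
    (c1 : HasCompactSupport φ₁) (c2 : HasCompactSupport φ₂) (cψ : HasCompactSupport ψ)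
    (hsub : tsupport ψ ⊆ {x | b.xl < x.1 ∧ x.1 < b.xr ∧ b.yb < x.2 ∧ x.2 < b.yt})
    (hd1 : Disjoint (tsupport φ₁) b.lines) (hd2 : Disjoint (tsupport φ₂) b.lines) (s : ℝ)
    {m : ℕ → ℤ} {y' : ℝ} (hm : Tendsto (fun n => (m n : ℝ) / n) atTop (𝓝 y')) (hy : y' < b.yb) :
    Tendsto (fun n => os (sysOm om) (fun m A => LIns.sh (m • gY.s) (thY A)) (m n)
      (YC (cC b φ₁ φ₂ n) (dC ψ s n) (cC_fin hlr hbt c1 c2 hd1 hd2 n) (dC_fin cψ s n)
        (alpq (2 / (Real.pi - l)) (dvg φ₁ φ₂) ψ s))) atTop (𝓝 0) := by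
  classical
  rw [← tendsto_add_atTop_iff_nat 1]
  have hg := test_prt hlr hbt h1 h2 c1 c2 hd1 hd2 4
  set E : ℕ → Finset Ed := fun n => (cC_fin hlr hbt c1 c2 hd1 hd2 (n + 1)).toFinset ∪
    (dC_fin cψ s (n + 1)).toFinset with hE
  have e1 : ∀ n, ∀ e ∉ E n, cC b φ₁ φ₂ (n + 1) e = 0 := by
    intro n e he
    by_contra hne
    exact he (mem_union_left _ ((Set.Finite.mem_toFinset _).2 hne))
  have e2 : ∀ n, ∀ e ∉ E n, dC ψ s (n + 1) e = 0 := by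
    intro n e he
    by_contra hne
    exact he (mem_union_right _ ((Set.Finite.mem_toFinset _).2 hne))
  have htot : ∀ c : Ed → ℝ, H638.YG.tot (flw c).ph = c := by
    intro c
    funext e
    unfold H638.YG.tot
    rw [flw_ph, flw_ph]
    ring
  have hpos : ∀ n : ℕ, (0 : ℝ) < 1 / ((n + 1 : ℕ) : ℝ) := fun n => by positivity
  have hδ : Tendsto (fun n : ℕ => 1 / ((n + 1 : ℕ) : ℝ)) atTop (𝓝[>] 0) := by
    rw [tendsto_nhdsWithin_iff]
    refine ⟨?_, Eventually.of_forall fun n => hpos n⟩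
    have := tendsto_one_div_add_atTop_nhds_zero_nat (𝕜 := ℝ)
    simpa using this
  have hψd1 : ContDiff ℝ ((⊤ : ℕ∞) : WithTop ℕ∞) fun x => fderiv ℝ ψ x (1, 0) :=
    (hψ.fderiv_right (m := ((⊤ : ℕ∞) : WithTop ℕ∞)) (by simp)).clm_apply contDiff_const
  have hψd2 : ContDiff ℝ ((⊤ : ℕ∞) : WithTop ℕ∞) fun x => fderiv ℝ ψ x (0, 1) :=
    (hψ.fderiv_right (m := ((⊤ : ℕ∞) : WithTop ℕ∞)) (by simp)).clm_apply contDiff_const
  have key := yg_om h0 hl hom (g := dvg (prt b 4 φ₁) (prt b 4 φ₂)) (ψ := ψ)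
    ⟨hg.1, hg.2.1, hg.2.2⟩ hψ cψ (yb := b.yb) (y' := y') (fun x hx => ?_) (fun x hx => ?_) hy s
    (m := fun n => m (n + 1)) (δ := fun n => 1 / ((n + 1 : ℕ) : ℝ)) hδ ?_ (E := E)
    (A := fun n => (flw (cC b φ₁ φ₂ (n + 1))).ph) (B := fun n => (flw (dC ψ s (n + 1))).ph)
    (fun n e he => by rw [htot]; exact e1 n e he) (fun n e he => by rw [htot]; exact e2 n e he)
    (fun n v => ?_) (fun n v => ?_)
  · have h3 := (Complex.continuous_re.tendsto 0).comp key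
    rw [Complex.zero_re] at h3
    refine h3.congr fun n => ?_
    show (om _).re = _
    unfold os
    show _ = (om _).re
    rw [YC_mir _ _ _ _ _ _ (e1 n) (e2 n), al_eq _ hsub hlr hbt hd1 hd2]
  · rw [dvg_prt hlr hbt hd1 hd2] at hx
    by_contra hcon
    apply hx
    refine prt_of_notMem fun hm => hcon ?_
    exact le_of_lt hm.2.2.1
  · exact (hsub (subset_tsupport _ hx)).2.2.1.le
  · have h4 := hm.comp (tendsto_add_atTop_nat 1)
    refine h4.congr fun n => ?_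
    show (m (n + 1) : ℝ) / ((n + 1 : ℕ) : ℝ) = _
    rw [mul_one_div]
  · rw [htot, dv_shift, fc_eq _ (hpos n)]
    exact H327.dv_fl (contDiff_prt hlr hbt hd1 h1 4) (contDiff_prt hlr hbt hd2 h2 4) (hpos n) _
  · rw [htot, dv_shift, fc_eq _ (hpos n)]
    have h5 : H825.dv (dC ψ s (n + 1)) (v.1 + 1, v.2 + 1) =
        s * H825.dv (fl (fun x => fderiv ℝ ψ x (1, 0)) (fun x => fderiv ℝ ψ x (0, 1))
          (1 / ((n + 1 : ℕ) : ℝ))) (v.1 + 1, v.2 + 1) := by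
      simp only [H825.dv, dC]
      ring
    rw [h5, H327.dv_fl hψd1 hψd2 (hpos n)]
    rfl


/-- **The centre for general `q`.** -/
theorem centreQ {l : ℝ} (h0 : 0 < l) (hl : l < Real.pi / 2) {om : Ins → ℂ}
    (hom : IsOm (2 * Real.cos (l / 2)) om) : CentreQ om (2 / (Real.pi - l)) := by
  intro S₀ b φ₁ φ₂ ψ h s m y' hm hy
  exact centre_os h0 hl hom h.lr h.bt h.h1 h.h2 h.hψ h.c1 h.c2 h.cψ h.hsub h.d1 h.d2 s hm hy

end Vale.Agent.P167.H680.Q
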